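import Vale.Agent.P002.Velocity

/-!
Notions for the density theorem on the whole representation variety: the relation with true
inverses, the representations up to scaling, absolute irreducibility in the sense of Schur and the
set of pairs in normal form.
-/

namespace Vale.Agent.P002

open Matrix

variable {n g r : ℕ}

/-- The matrices of a tuple as one family. -/
def fam (x : Tup n (Mat r ℂ)) : Fin n ⊕ Fin n → Mat r ℂ := Sum.elim x.1 x.2

/-- Only scalars commute with every member of the family. -/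
def SchurF {ι : Type*} (h : ι → Mat r ℂ) : Prop :=
  ∀ Y : Mat r ℂ, (∀ j, Y * h j = h j * Y) → ∃ c : ℂ, Y = c • 1

/-- Only scalars commute with the tuple. -/
def Schur (x : Tup n (Mat r ℂ)) : Prop := SchurF (fam x)

/-- Simultaneous conjugation. -/
noncomputable def conjT (S : Mat r ℂ) (x : Tup n (Mat r ℂ)) : Tup n (Mat r ℂ) :=
  mapTup (fun a => S * a * S⁻¹) x

/-- The product of the commutators, with true inverses. -/
noncomputable def prodC (x : Tup n (Mat r ℂ)) : Mat r ℂ := rel (fun a : Mat r ℂ => a⁻¹) x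

/-- All matrices are invertible. -/
def Good (x : Tup n (Mat r ℂ)) : Prop := (∀ i, (x.1 i).det ≠ 0) ∧ ∀ i, (x.2 i).det ≠ 0

/-- A representation by invertible matrices. -/
def PRep (x : Tup n (Mat r ℂ)) : Prop := Good x ∧ prodC x = 1

/-- The first handle. -/
def pairT {M : Type*} (x : Tup (g + 1) M) : Tup 1 M := (fun _ => x.1 0, fun _ => x.2 0)

/-- The other handles. -/
def tailT {M : Type*} (x : Tup (g + 1) M) : Tup g M := (Fin.tail x.1, Fin.tail x.2)

/-- A pair in normal form: in an eigenbasis of `b`, the matrix `a` is upper triangular times lower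
triangular and the upper factor has nowhere vanishing superdiagonal. -/
def OStar (a b : Mat r ℂ) : Prop :=
  ∃ (S P L : Mat r ℂ) (μ : Fin r → ℂ), IsUnit S.det ∧ Function.Injective μ ∧ (∀ i, μ i ≠ 0) ∧
    BlockTriangular P id ∧ (∀ i, P i i ≠ 0) ∧
    BlockTriangular L OrderDual.toDual ∧ (∀ i, L i i ≠ 0) ∧
    (∀ i j : Fin r, (j : ℕ) = i + 1 → P i j ≠ 0) ∧
    b = S * diagonal μ * S⁻¹ ∧ a = S * (P * L) * S⁻¹

theorem adjugate_eq_nonsing_inv {a : Mat r ℂ} (h : a.det = 1) : adjugate a = a⁻¹ :=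
  (adjugate_eq_inv h).symm

theorem prodC_eq_rel {x : Tup n (Mat r ℂ)} (hx : DetOne x) : prodC x = rel adjugate x := by
  simp only [prodC, rel]
  congr 2
  funext i
  rw [adjugate_eq_inv (hx.1 i), adjugate_eq_inv (hx.2 i)]

theorem good_of_detOne {x : Tup n (Mat r ℂ)} (hx : DetOne x) : Good x :=
  ⟨fun i => by simp [hx.1 i], fun i => by simp [hx.2 i]⟩

theorem pRep_of_isRep {x : Tup n (Mat r ℂ)} (hx : IsRep x) : PRep x :=
  ⟨good_of_detOne hx.1, (prodC_eq_rel hx.1).trans hx.2⟩

theorem isRep_of_pRep {x : Tup n (Mat r ℂ)} (hx : PRep x) (hd : DetOne x) : IsRep x :=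
  ⟨hd, (prodC_eq_rel hd).symm.trans hx.2⟩

theorem prodC_succ (x : Tup (g + 1) (Mat r ℂ)) :
    prodC x = x.1 0 * x.2 0 * (x.1 0)⁻¹ * (x.2 0)⁻¹ * prodC (tailT x) := by
  simp [prodC, rel, List.ofFn_succ, tailT, Fin.tail]

theorem prodC_pairT (x : Tup (g + 1) (Mat r ℂ)) :
    prodC (pairT x) = x.1 0 * x.2 0 * (x.1 0)⁻¹ * (x.2 0)⁻¹ := by
  simp [prodC, rel, pairT]

end Vale.Agent.P002
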