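import Vale.Agent.P002.Full.Basic

/-!
Block upper triangular tuples: the relation, conjugations and determinants.
-/

namespace Vale.Agent.P002

open Matrix

namespace Red

variable {n r A B : ℕ} (e : Fin A ⊕ Fin B ≃ Fin r)

/-- A block upper triangular matrix. -/
def blk (σ : Mat A ℂ) (ξ : Matrix (Fin A) (Fin B) ℂ) (ρ : Mat B ℂ) : Mat r ℂ :=
  Matrix.reindex e e (fromBlocks σ ξ 0 ρ)

theorem blk_mul (σ σ' : Mat A ℂ) (ξ ξ' : Matrix (Fin A) (Fin B) ℂ) (ρ ρ' : Mat B ℂ) :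
    blk e σ ξ ρ * blk e σ' ξ' ρ' = blk e (σ * σ') (σ * ξ' + ξ * ρ') (ρ * ρ') := by
  simp [blk, submatrix_mul_equiv, fromBlocks_multiply]

theorem blk_one : blk e 1 0 1 = 1 := by simp [blk, fromBlocks_one]

theorem blk_det (σ : Mat A ℂ) (ξ : Matrix (Fin A) (Fin B) ℂ) (ρ : Mat B ℂ) :
    (blk e σ ξ ρ).det = σ.det * ρ.det := by
  rw [blk, det_reindex_self, det_fromBlocks_zero₂₁]

theorem blk_inv {σ : Mat A ℂ} (hσ : IsUnit σ.det) (ξ : Matrix (Fin A) (Fin B) ℂ) {ρ : Mat B ℂ}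
    (hρ : IsUnit ρ.det) : (blk e σ ξ ρ)⁻¹ = blk e σ⁻¹ (-(σ⁻¹ * ξ * ρ⁻¹)) ρ⁻¹ := by
  refine inv_eq_right_inv ?_
  rw [blk_mul, mul_nonsing_inv σ hσ, mul_nonsing_inv ρ hρ, Matrix.mul_neg, ← Matrix.mul_assoc,
    ← Matrix.mul_assoc, mul_nonsing_inv σ hσ, Matrix.one_mul, neg_add_cancel, blk_one]

/-- A block upper triangular tuple. -/
def ext (σ : Tup n (Mat A ℂ)) (ξ : Tup n (Matrix (Fin A) (Fin B) ℂ)) (ρ : Tup n (Mat B ℂ)) :
    Tup n (Mat r ℂ) :=
  (fun i => blk e (σ.1 i) (ξ.1 i) (ρ.1 i), fun i => blk e (σ.2 i) (ξ.2 i) (ρ.2 i))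

/-- The determinants of a tuple. -/
noncomputable def dets (x : Tup n (Mat r ℂ)) : Tup n ℂ := mapTup Matrix.det x

theorem dets_ext (σ : Tup n (Mat A ℂ)) (ξ : Tup n (Matrix (Fin A) (Fin B) ℂ))
    (ρ : Tup n (Mat B ℂ)) : dets (ext e σ ξ ρ) = dets σ * dets ρ := by
  refine Prod.ext (funext fun i => ?_) (funext fun i => ?_) <;>
    simp [dets, mapTup, ext, blk_det]

theorem good_iff (x : Tup n (Mat r ℂ)) :
    Good x ↔ (∀ i, (dets x).1 i ≠ 0) ∧ ∀ i, (dets x).2 i ≠ 0 :=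
  Iff.rfl

theorem good_ext {σ : Tup n (Mat A ℂ)} (ξ : Tup n (Matrix (Fin A) (Fin B) ℂ))
    {ρ : Tup n (Mat B ℂ)} : Good (ext e σ ξ ρ) ↔ Good σ ∧ Good ρ := by
  simp only [Good, ext, blk_det, mul_ne_zero_iff, forall_and]
  tauto

/-- The upper block of the relation depends linearly on the upper blocks of the tuple. -/
theorem exists_linear : ∀ {n : ℕ} {σ : Tup n (Mat A ℂ)} {ρ : Tup n (Mat B ℂ)}, Good σ → Good ρ →
    ∃ L : Tup n (Matrix (Fin A) (Fin B) ℂ) →ₗ[ℂ] Matrix (Fin A) (Fin B) ℂ,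
      ∀ ξ, prodC (ext e σ ξ ρ) = blk e (prodC σ) (L ξ) (prodC ρ) := by
  intro n
  induction n with
  | zero => exact fun _ _ => ⟨0, fun ξ => by simp [prodC, rel, blk_one]⟩
  | succ n ih =>
    intro σ ρ hσ hρ
    obtain ⟨L, hL⟩ := ih (σ := tailT σ) (ρ := tailT ρ)
      ⟨fun i => hσ.1 i.succ, fun i => hσ.2 i.succ⟩ ⟨fun i => hρ.1 i.succ, fun i => hρ.2 i.succ⟩
    set a := σ.1 0
    set b := σ.2 0
    set c := ρ.1 0
    set d := ρ.2 0
    have ha : IsUnit a.det := (hσ.1 0).isUnit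
    have hb : IsUnit b.det := (hσ.2 0).isUnit
    have hc : IsUnit c.det := (hρ.1 0).isUnit
    have hd : IsUnit d.det := (hρ.2 0).isUnit
    refine ⟨{ toFun := fun ξ => a * b * a⁻¹ * b⁻¹ * L (tailT ξ) +
        (a * b * a⁻¹ * -(b⁻¹ * ξ.2 0 * d⁻¹) +
          (a * b * -(a⁻¹ * ξ.1 0 * c⁻¹) + (a * ξ.2 0 + ξ.1 0 * d) * c⁻¹) * d⁻¹) *
            prodC (tailT ρ)
              map_add' := fun ξ η => ?_
              map_smul' := fun t ξ => ?_ }, fun ξ => ?_⟩
    · have e1 : tailT (ξ + η) = tailT ξ + tailT η := rfl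
      simp only [e1, map_add, Prod.fst_add, Prod.snd_add, Pi.add_apply, Matrix.mul_add,
        Matrix.add_mul, neg_add_rev, Matrix.mul_neg, Matrix.neg_mul]
      abel
    · have e1 : tailT (t • ξ) = t • tailT ξ := rfl
      simp only [e1, map_smul, Prod.smul_fst, Prod.smul_snd, Pi.smul_apply, RingHom.id_apply,
        Matrix.mul_smul, Matrix.smul_mul, smul_add, Matrix.mul_neg, Matrix.neg_mul, smul_neg,
        Matrix.add_mul, Matrix.mul_add, neg_add_rev]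
    · have e1 : tailT (ext e σ ξ ρ) = ext e (tailT σ) (tailT ξ) (tailT ρ) := rfl
      rw [prodC_succ, e1, hL, prodC_succ σ, prodC_succ ρ]
      simp only [ext]
      rw [blk_inv e ha _ hc, blk_inv e hb _ hd]
      simp only [blk_mul, LinearMap.coe_mk, AddHom.coe_mk]
      rfl

/-- Scaling of the upper blocks by conjugation. -/
theorem conjT_scale {t : ℂ} (ht : t ≠ 0) (σ : Tup n (Mat A ℂ))
    (ξ : Tup n (Matrix (Fin A) (Fin B) ℂ)) (ρ : Tup n (Mat B ℂ)) :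
    conjT (blk e (t • 1) 0 1) (ext e σ ξ ρ) = ext e σ (t • ξ) ρ := by
  have hi : (blk e (t • 1 : Mat A ℂ) 0 (1 : Mat B ℂ))⁻¹ = blk e (t⁻¹ • 1) 0 1 := by
    refine inv_eq_right_inv ?_
    simp [blk_mul, blk_one, smul_smul, inv_mul_cancel₀ ht]
  refine Prod.ext (funext fun i => ?_) (funext fun i => ?_) <;>
    simp [conjT, mapTup, ext, hi, blk_mul, smul_smul, inv_mul_cancel₀ ht]

theorem isUnit_blk_det {σ : Mat A ℂ} (hσ : IsUnit σ.det) {ρ : Mat B ℂ} (hρ : IsUnit ρ.det) :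
    IsUnit (blk e σ 0 ρ).det := by
  rw [blk_det]
  exact hσ.mul hρ

/-- Block diagonal conjugation of a block diagonal tuple. -/
theorem conjT_diag {S : Mat A ℂ} (hS : IsUnit S.det) {T : Mat B ℂ} (hT : IsUnit T.det)
    (σ : Tup n (Mat A ℂ)) (ρ : Tup n (Mat B ℂ)) :
    conjT (blk e S 0 T) (ext e σ 0 ρ) = ext e (conjT S σ) 0 (conjT T ρ) := by
  refine Prod.ext (funext fun i => ?_) (funext fun i => ?_) <;>
    simp [conjT, mapTup, ext, blk_inv e hS _ hT, blk_mul]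

theorem conjT_one (x : Tup n (Mat r ℂ)) : conjT 1 x = x := by
  refine Prod.ext (funext fun i => ?_) (funext fun i => ?_) <;> simp [conjT, mapTup]

theorem dets_conjT {S : Mat r ℂ} (hS : IsUnit S.det) (x : Tup n (Mat r ℂ)) :
    dets (conjT S x) = dets x := by
  refine Prod.ext (funext fun i => ?_) (funext fun i => ?_) <;>
    exact det_conj ((isUnit_iff_isUnit_det S).2 hS) _

theorem pRep_conjT {S : Mat r ℂ} (hS : IsUnit S.det) {x : Tup n (Mat r ℂ)} (hx : PRep x) :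
    PRep (conjT S x) := by
  refine ⟨?_, ?_⟩
  · rw [good_iff, dets_conjT hS]
    exact (good_iff x).1 hx.1
  · let φ : Mat r ℂ →* Mat r ℂ :=
      { toFun := fun a => S * a * S⁻¹
        map_one' := by simp [mul_nonsing_inv S hS]
        map_mul' := fun a b => by
          simp only [Matrix.mul_assoc]
          rw [← Matrix.mul_assoc S⁻¹, nonsing_inv_mul S hS, Matrix.one_mul] }
    have h : prodC (conjT S x) = φ (prodC x) :=
      rel_map φ (fun a => a⁻¹) (fun a => a⁻¹) (fun a => by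
        show S * a⁻¹ * S⁻¹ = (S * a * S⁻¹)⁻¹
        rw [Matrix.mul_inv_rev, Matrix.mul_inv_rev, nonsing_inv_nonsing_inv S hS,
          Matrix.mul_assoc]) x
    rw [h, hx.2, map_one]

/-- Scale the first matrix. -/
def tw {g : ℕ} (c : ℂ) (x : Tup (g + 1) (Mat r ℂ)) : Tup (g + 1) (Mat r ℂ) :=
  (Function.update x.1 0 (c • x.1 0), x.2)

theorem schur_tw {g : ℕ} {c : ℂ} (hc : c ≠ 0) {x : Tup (g + 1) (Mat r ℂ)} (hx : Schur x) :
    Schur (tw c x) := by
  intro Y hY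
  refine hx Y fun j => ?_
  rcases j with j | j
  · rcases eq_or_ne j 0 with rfl | hj
    · have h : c • (Y * x.1 0) = c • (x.1 0 * Y) := by
        simpa [fam, tw] using hY (Sum.inl 0)
      exact smul_right_injective _ hc h
    · simpa [fam, tw, hj] using hY (Sum.inl j)
  · simpa [fam, tw] using hY (Sum.inr j)

theorem pRep_tw {g : ℕ} {c : ℂ} (hc : c ≠ 0) {x : Tup (g + 1) (Mat r ℂ)} (hx : PRep x) :
    PRep (tw c x) := by
  have ha : IsUnit (x.1 0).det := (hx.1.1 0).isUnit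
  refine ⟨⟨fun i => ?_, hx.1.2⟩, ?_⟩
  · rcases eq_or_ne i 0 with rfl | hi
    · simp [tw, hc, hx.1.1 0]
    · simpa [tw, hi] using hx.1.1 i
  · have hinv : (c • x.1 0)⁻¹ = c⁻¹ • (x.1 0)⁻¹ := by
      refine inv_eq_right_inv ?_
      simp [smul_smul, inv_mul_cancel₀ hc, mul_nonsing_inv _ ha]
    have ht : tailT (tw c x) = tailT x := by
      refine Prod.ext (funext fun i => ?_) rfl
      simp [tailT, tw, Fin.tail]
    rw [prodC_succ, ht]
    conv_rhs => rw [← hx.2, prodC_succ]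
    simp [tw, hinv, smul_smul, inv_mul_cancel₀ hc]

theorem dets_tw {g : ℕ} (c : ℂ) (x : Tup (g + 1) (Mat r ℂ)) :
    dets (tw c x) = ((Function.update 1 0 (c ^ r), 1) : Tup (g + 1) ℂ) * dets x := by
  refine Prod.ext (funext fun i => ?_) (funext fun i => ?_)
  · rcases eq_or_ne i 0 with rfl | hi
    · simp [dets, mapTup, tw, det_smul]
    · simp [dets, mapTup, tw, hi]
  · simp [dets, mapTup, tw]

end Red

end Vale.Agent.P002
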