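import Vale.Agent.P002.Full.KerCurve

/-!
Commutants, and the bound on the centralizer of a matrix by its largest eigenspace.
-/

namespace Vale.Agent.P002

open Matrix Module
open scoped Matrix.Norms.Operator

variable {r : ℕ} {ι : Type*} [Fintype ι]

/-- The commutators with a family, linearly in both arguments. -/
noncomputable def adMap : (ι → Mat r ℂ) →L[ℂ] Mat r ℂ →L[ℂ] (ι → Mat r ℂ) :=
  LinearMap.toContinuousLinearMap
    { toFun := fun h => LinearMap.toContinuousLinearMap (LinearMap.pi fun j =>
        LinearMap.mulRight ℂ (h j) - LinearMap.mulLeft ℂ (h j))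
      map_add' := fun h h' => by
        ext Y j : 2
        simp [mul_add, add_mul]
        abel
      map_smul' := fun c h => by
        ext Y j : 2
        simp [smul_sub] }

@[simp]
theorem adMap_apply (h : ι → Mat r ℂ) (Y : Mat r ℂ) (j : ι) :
    adMap h Y j = Y * h j - h j * Y := rfl

/-- The commutant of a family. -/
noncomputable def commA (h : ι → Mat r ℂ) : Submodule ℂ (Mat r ℂ) := (adMap h).ker

theorem mem_commA {h : ι → Mat r ℂ} {Y : Mat r ℂ} :
    Y ∈ commA h ↔ ∀ j, Y * h j = h j * Y := by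
  rw [commA, LinearMap.mem_ker, funext_iff]
  simp [sub_eq_zero]

theorem one_mem_commA (h : ι → Mat r ℂ) : (1 : Mat r ℂ) ∈ commA h := by simp [mem_commA]

theorem schurF_iff_finrank (hr : r ≠ 0) (h : ι → Mat r ℂ) :
    SchurF h ↔ finrank ℂ (commA h) ≤ 1 := by
  have : NeZero r := ⟨hr⟩
  constructor
  · intro hs
    rw [finrank_le_one_iff]
    refine ⟨⟨1, one_mem_commA h⟩, fun w => ?_⟩
    obtain ⟨c, hc⟩ := hs w.1 (mem_commA.1 w.2)
    exact ⟨c, Subtype.ext hc.symm⟩
  · intro hd Y hY
    obtain ⟨⟨v, hv⟩, hgen⟩ := finrank_le_one_iff.1 hd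
    obtain ⟨a, ha⟩ := hgen ⟨1, one_mem_commA h⟩
    obtain ⟨b, hb⟩ := hgen ⟨Y, mem_commA.2 hY⟩
    have ha' : a • v = 1 := congrArg Subtype.val ha
    have hb' : b • v = Y := congrArg Subtype.val hb
    have ha0 : a ≠ 0 := fun h0 => by simp [h0] at ha'
    exact ⟨b / a, by rw [← ha', smul_smul, div_mul_cancel₀ _ ha0, hb']⟩

/-- The dimension of the eigenspace. -/
noncomputable def eigDim (X : Mat r ℂ) (μ : ℂ) : ℕ :=
  finrank ℂ (LinearMap.ker (Matrix.toLin' (X - μ • 1)))

theorem eigDim_le (X : Mat r ℂ) (μ : ℂ) : eigDim X μ ≤ r :=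
  (Submodule.finrank_le _).trans (finrank_fin_fun ℂ).le

/-- Maps intertwining an endomorphism with `B`. -/
def intertw {V : Type} [AddCommGroup V] [Module ℂ V] (A : Module.End ℂ V)
    (B : Module.End ℂ (Fin r → ℂ)) : Submodule ℂ (V →ₗ[ℂ] (Fin r → ℂ)) where
  carrier := {Z | B ∘ₗ Z = Z ∘ₗ A}
  add_mem' {a b} ha hb := by
    rw [Set.mem_ofPred_eq] at *
    rw [LinearMap.comp_add, LinearMap.add_comp, ha, hb]
  zero_mem' := by simp
  smul_mem' c Z hZ := by
    rw [Set.mem_ofPred_eq] at *
    rw [LinearMap.comp_smul, LinearMap.smul_comp, hZ]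

theorem finrank_intertw_le (B : Module.End ℂ (Fin r → ℂ)) (k : ℕ)
    (hB : ∀ μ : ℂ, finrank ℂ (B.eigenspace μ) ≤ k) :
    ∀ (d : ℕ) (V : Type) [AddCommGroup V] [Module ℂ V] [FiniteDimensional ℂ V],
      finrank ℂ V = d → ∀ A : Module.End ℂ V, finrank ℂ (intertw A B) ≤ d * k
  | 0, V, _, _, _, hd, A => by
    have : Subsingleton V := finrank_zero_iff.1 hd
    have : Subsingleton (intertw A B) := ⟨fun a b => Subtype.ext (LinearMap.ext fun v => by
      rw [Subsingleton.elim v 0, map_zero, map_zero])⟩
    rw [finrank_zero_of_subsingleton, Nat.zero_mul]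
  | d + 1, V, _, _, _, hd, A => by
    have : Nontrivial V := Module.nontrivial_of_finrank_eq_succ hd
    obtain ⟨μ, hμ⟩ := Module.End.exists_eigenvalue A
    obtain ⟨e, he⟩ := hμ.exists_hasEigenvector
    let q : Submodule ℂ V := ℂ ∙ e
    have hq : q ≤ q.comap A := by
      rw [Submodule.span_le, Set.singleton_subset_iff, SetLike.mem_coe, Submodule.mem_comap,
        he.apply_eq_smul]
      exact Submodule.smul_mem _ _ (Submodule.mem_span_singleton_self e)
    have hdq : finrank ℂ (V ⧸ q) = d := by
      have h1 := q.finrank_quotient_add_finrank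
      have h2 : finrank ℂ q = 1 := finrank_span_singleton he.2
      omega
    have ih := finrank_intertw_le B k hB d (V ⧸ q) hdq (q.mapQ q A hq)
    let ev : intertw A B →ₗ[ℂ] B.eigenspace μ :=
      { toFun := fun Z => ⟨Z.1 e, by
          rw [Module.End.mem_eigenspace_iff]
          have h := LinearMap.congr_fun Z.2 e
          simpa [he.apply_eq_smul] using h⟩
        map_add' := fun _ _ => Subtype.ext rfl
        map_smul' := fun _ _ => Subtype.ext rfl }
    have hker : ∀ Z : LinearMap.ker ev, q ≤ LinearMap.ker Z.1.1 := fun Z => by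
      rw [Submodule.span_le, Set.singleton_subset_iff]
      exact congrArg Subtype.val Z.2
    let desc : LinearMap.ker ev →ₗ[ℂ] intertw (q.mapQ q A hq) B :=
      { toFun := fun Z => ⟨q.liftQ Z.1.1 (hker Z), by
          refine q.linearMap_qext (LinearMap.ext fun v => ?_)
          have h := LinearMap.congr_fun Z.1.2 v
          simpa using h⟩
        map_add' := fun _ _ => Subtype.ext (q.linearMap_qext (LinearMap.ext fun v => by simp))
        map_smul' := fun _ _ => Subtype.ext (q.linearMap_qext (LinearMap.ext fun v => by simp)) }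
    have hdesc : Function.Injective desc := fun Z Z' h => by
      refine Subtype.ext (Subtype.ext (LinearMap.ext fun v => ?_))
      have h' := LinearMap.congr_fun (congrArg Subtype.val h) (Submodule.Quotient.mk v)
      simpa [desc] using h'
    have h1 := LinearMap.finrank_le_finrank_of_injective hdesc
    have h2 := LinearMap.finrank_range_add_finrank_ker (K := ℂ) (V := intertw A B)
      (V₂ := B.eigenspace μ) ev
    have h3 := (Submodule.finrank_le (LinearMap.range ev)).trans (hB μ)
    rw [Nat.succ_mul]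
    omega

/-- The centralizer of a matrix is bounded by its largest eigenspace. -/
theorem finrank_centralizer_le (X : Mat r ℂ) {k : ℕ} (hk : ∀ μ, eigDim X μ ≤ k) :
    finrank ℂ (commA (fun _ : Unit => X)) ≤ r * k := by
  have hB : ∀ μ : ℂ, finrank ℂ (Module.End.eigenspace (Matrix.toLin' X) μ) ≤ k := fun μ => by
    refine le_of_eq_of_le ?_ (hk μ)
    rw [eigDim, Module.End.eigenspace_def, map_sub, map_smul, Matrix.toLin'_one]
    rfl
  have h := finrank_intertw_le (Matrix.toLin' X) k hB r (Fin r → ℂ) (finrank_fin_fun ℂ)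
    (Matrix.toLin' X)
  refine le_trans ?_ h
  let φ : commA (fun _ : Unit => X) →ₗ[ℂ] intertw (Matrix.toLin' X) (Matrix.toLin' X) :=
    { toFun := fun Y => ⟨Matrix.toLin' Y.1, by
        change _ = _
        rw [← Matrix.toLin'_mul, ← Matrix.toLin'_mul, mem_commA.1 Y.2 ()]⟩
      map_add' := fun _ _ => Subtype.ext (map_add _ _ _)
      map_smul' := fun _ _ => Subtype.ext (map_smul _ _ _) }
  exact LinearMap.finrank_le_finrank_of_injective (f := φ) fun a b hab =>
    Subtype.ext (Matrix.toLin'.injective (congrArg Subtype.val hab))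

end Vale.Agent.P002
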