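import Vale.Agent.P002.Full.ChartDef

/-!
A rational chart through all representations whose first handle is in normal form.
-/

namespace Vale.Agent.P002

open Matrix Polynomial

variable {g m : ℕ}

theorem rel_cons {r : ℕ} (a b : Mat r ℂ) (h : Tup (g + 1) (Mat r ℂ)) :
    rel adjugate ((Fin.cons a h.1, Fin.cons b h.2) : Tup (g + 2) (Mat r ℂ)) =
      a * b * adjugate a * adjugate b * rel adjugate h := by
  simp [rel, List.ofFn_succ (n := g + 1)]

theorem det_rel_adjugate {n r : ℕ} {h : Tup n (Mat r ℂ)} (hd : DetOne h) :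
    (rel adjugate h).det = 1 := by
  obtain ⟨q, rfl⟩ := (detOne_iff h).1 hd
  rw [toMat, rel_map (slCoe r ℂ) _ adjugate slCoe_inv q]
  exact (rel (fun a => a⁻¹) q).2

theorem nu_injective {p : CPrm g (m + 2)} (h : den₂ p ≠ 0) : Function.Injective (nu p) := by
  intro i j e
  by_contra hij
  refine h (Finset.prod_eq_zero (Finset.mem_univ i)
    (Finset.prod_eq_zero (Finset.mem_erase.2 ⟨Ne.symm hij, Finset.mem_univ j⟩) ?_))
  rw [e, sub_self]

theorem prod_nu {p : CPrm g (m + 2)} (h : ∏ j, p.2.2.1 j ≠ 0) : ∏ i, nu p i = 1 := by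
  simp only [nu, Finset.prod_mul_distrib]
  rw [Finset.prod_update_of_mem (Finset.mem_univ _)]
  simp [h]

/-- The algebra of the chart on its domain. -/
theorem chart_facts {p : CPrm g (m + 2)} (h₁ : den₁ p ≠ 0)
    (hNZ : NZ (m + 1) (mz p)) :
    DetOne (hh p) ∧ IsUnit (kk p).det ∧ UpU (fac (m + 1) (mz p)).U ∧
      zz p * bb p = kk p * ((fac (m + 1) (mz p)).L * diagonal (nu p)) * (kk p)⁻¹ ∧
      (bb p).det = 1 ∧ LoU (fac (m + 1) (mz p)).L := by
  simp only [den₁, mul_ne_zero_iff, Finset.prod_ne_zero_iff] at h₁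
  obtain ⟨⟨⟨hA, hB⟩, hG⟩, hμ⟩ := h₁
  have hd : DetOne (hh p) := ⟨fun i => det_nd (hA i (Finset.mem_univ i)),
    fun i => det_nd (hB i (Finset.mem_univ i))⟩
  have hGu : IsUnit p.2.1.det := isUnit_iff_ne_zero.2 hG
  have hz : (zz p).det = 1 := by rw [zz, det_adjugate, det_rel_adjugate hd, one_pow]
  have hm : (mz p).det = 1 := by
    rw [mz, det_conj_of' hGu, hz]
  obtain ⟨hW, hL, hU, hWM⟩ := fac_spec (m + 1) (mz p) hNZ hm
  set F := fac (m + 1) (mz p)
  have hKu : IsUnit (kk p).det := by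
    rw [kk, det_mul]
    exact hGu.mul (IsUnit.of_mul_eq_one _ (by rw [← det_mul, hW, det_one]))
  have hKi : (kk p)⁻¹ = F.Wi * p.2.1⁻¹ := by
    rw [kk, Matrix.mul_inv_rev, inv_eq_right_inv hW]
  have hWi : F.W * F.Wi = 1 := hW
  have hkk : kk p = p.2.1 * F.W := rfl
  have hzK : zz p = kk p * (F.L * F.U) * (kk p)⁻¹ := by
    have hmz' : mz p = p.2.1⁻¹ * zz p * p.2.1 := rfl
    rw [hKi, ← hWM, hmz', hkk]
    calc zz p = p.2.1 * (F.W * F.Wi) * p.2.1⁻¹ * zz p * p.2.1 * (F.W * F.Wi) * p.2.1⁻¹ := by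
          simp only [hWi, mul_one, Matrix.mul_nonsing_inv _ hGu, one_mul,
            Matrix.mul_nonsing_inv_cancel_right _ _ hGu]
      _ = _ := by simp only [mul_assoc]
  have hUu : IsUnit F.U.det := by rw [hU.det]; exact isUnit_one
  refine ⟨hd, hKu, hU, ?_, ?_, hL⟩
  · have hbb : bb p = kk p * (F.U⁻¹ * diagonal (nu p)) * (kk p)⁻¹ := rfl
    rw [hbb, hzK]
    simp only [mul_assoc, Matrix.nonsing_inv_mul_cancel_left _ _ hKu,
      Matrix.mul_nonsing_inv_cancel_left _ _ hUu]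
  · rw [bb, det_conj_of hKu, det_mul,
      det_diagonal, prod_nu (Finset.prod_ne_zero_iff.2 hμ), det_nonsing_inv, hU.det]
    simp

theorem isRep_chartMap {p : CPrm g (m + 2)} (hp : p ∈ dom g m) : IsRep (chartMap p) := by
  obtain ⟨⟨⟨⟨-, h₁⟩, h₂⟩, hNZ⟩, h₀⟩ := hp
  obtain ⟨hd, hKu, hU, hzb, hdb, hL⟩ := chart_facts h₁ hNZ
  set F := fac (m + 1) (mz p)
  have hν := nu_injective h₂
  have hUd : F.U.det ≠ 0 := by rw [hU.det]; exact one_ne_zero
  set T := F.U⁻¹ * diagonal (nu p) with hT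
  have hTt : BlockTriangular T id := (tri_inv hU.1 hUd).mul (blockTriangular_diagonal _)
  have hTd : ∀ i, T i i = nu p i := fun i => by
    rw [hT, mul_diagonal, tri_inv_apply Function.injective_id hU.1 hUd, hU.2, inv_one, one_mul]
  have hcb : (bb p).charpoly = ∏ j, (X - C (nu p j)) := by
    rw [bb, charpoly_conj hKu, charpoly_of_isUpperTriangular _ hTt]
    simp only [hTd]
  have hcz : (zz p * bb p).charpoly = ∏ j, (X - C (nu p j)) := by
    have hLz : (F.L * diagonal (nu p))ᵀ.BlockTriangular id := by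
      intro i j h
      rw [transpose_apply, mul_diagonal,
        hL.1 (i := j) (j := i) (OrderDual.toDual_lt_toDual.2 h), zero_mul]
    rw [hzb, charpoly_conj hKu, ← charpoly_transpose, charpoly_of_isUpperTriangular _ hLz]
    simp [F, hL.2]
  have hint : a0 p * bb p = zz p * bb p * a0 p := by
    rw [a0, Finset.sum_mul, Finset.mul_sum]
    refine Finset.sum_congr rfl fun i _ => ?_
    rw [mul_assoc _ _ (bb p), (aeval_eigen hcb i).2, mul_smul_comm, ← mul_assoc (zz p * bb p),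
      ← mul_assoc (zz p * bb p), (aeval_eigen hcz i).1, smul_mul_assoc, smul_mul_assoc]
  set c := (a0 p).det⁻¹ - 1
  set E := aeval (bb p) (lag (nu p) 0) with hE
  have hab : aa p * bb p = zz p * bb p * aa p := by
    have hcomm : (1 + c • E) * bb p = bb p * (1 + c • E) := by
      rw [add_mul, mul_add, one_mul, mul_one, smul_mul_assoc, mul_smul_comm,
        (aeval_eigen hcb 0).1, (aeval_eigen hcb 0).2]
    rw [aa, mul_assoc, hcomm, ← mul_assoc, hint, mul_assoc (zz p * bb p)]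
  have hda : (aa p).det = 1 := by
    have h1 : (1 + c • E).det = 1 + c := det_one_add_smul_lag hν hKu hTt hTd 0 c
    rw [aa, det_mul, h1]
    simp [c, mul_inv_cancel₀ (show (a0 p).det ≠ 0 from h₀)]
  refine ⟨⟨fun i => ?_, fun i => ?_⟩, ?_⟩
  · refine Fin.cases ?_ (fun i => ?_) i
    · simpa [chartMap] using hda
    · simpa [chartMap] using hd.1 i
  · refine Fin.cases ?_ (fun i => ?_) i
    · simpa [chartMap] using hdb
    · simpa [chartMap] using hd.2 i
  · rw [chartMap, rel_cons, hab]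
    have e1 : zz p * bb p * aa p * adjugate (aa p) * adjugate (bb p) = zz p := by
      rw [mul_assoc _ (aa p), mul_adjugate, hda, one_smul, mul_one, mul_assoc, mul_adjugate, hdb,
        one_smul, mul_one]
    rw [e1, zz, adjugate_mul, det_rel_adjugate hd, one_smul]

theorem ratSet_dom_and_rat : RatSet (dom g m) ∧
    ∀ v, RatOn (dom g m) fun p => coords (chartMap p) v := by
  let V := CPrm g (m + 2)
  have hmat : ∀ φ : V →ₗ[ℂ] Mat (m + 2) ℂ, Continuous φ → RatMat (Set.univ : Set V) fun p => φ p :=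
    fun φ hφ i j => RatOn.of_pol (Pol.linear
      ⟨{ toFun := fun p => φ p i j
         map_add' := fun x y => by simp
         map_smul' := fun c x => by simp }, hφ.matrix_elem i j⟩)
  have hH₁ : ∀ k, RatMat (Set.univ : Set V) fun p => p.1.1 k := fun k =>
    hmat { toFun := fun p => p.1.1 k, map_add' := fun _ _ => rfl, map_smul' := fun _ _ => rfl }
      (show Continuous fun p : V => p.1.1 k by fun_prop)
  have hH₂ : ∀ k, RatMat (Set.univ : Set V) fun p => p.1.2 k := fun k =>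
    hmat { toFun := fun p => p.1.2 k, map_add' := fun _ _ => rfl, map_smul' := fun _ _ => rfl }
      (show Continuous fun p : V => p.1.2 k by fun_prop)
  have hG : RatMat (Set.univ : Set V) fun p => p.2.1 :=
    hmat { toFun := fun p => p.2.1, map_add' := fun _ _ => rfl, map_smul' := fun _ _ => rfl }
      (show Continuous fun p : V => p.2.1 by fun_prop)
  have hX : RatMat (Set.univ : Set V) fun p => p.2.2.2 :=
    hmat { toFun := fun p => p.2.2.2, map_add' := fun _ _ => rfl, map_smul' := fun _ _ => rfl }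
      (show Continuous fun p : V => p.2.2.2 by fun_prop)
  have hμ : ∀ i, RatOn (Set.univ : Set V) fun p => p.2.2.1 i := fun i =>
    RatOn.of_pol (Pol.linear
      ⟨{ toFun := fun p : V => p.2.2.1 i, map_add' := fun _ _ => rfl, map_smul' := fun _ _ => rfl },
        show Continuous fun p : V => p.2.2.1 i by fun_prop⟩)
  have hden : RatOn (Set.univ : Set V) den₁ :=
    (((RatOn.prod _ _ fun k _ => (hH₁ k).det).mul (RatOn.prod _ _ fun k _ => (hH₂ k).det)).mul
      hG.det).mul (RatOn.prod _ _ fun i _ => hμ i)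
  set Ω₁ : Set V := Set.univ ∩ {p | den₁ p ≠ 0} with hΩ₁
  have h₁ : RatSet Ω₁ := ratSet_univ.inter_ne_zero hden
  have hsub₁ : Ω₁ ⊆ Set.univ := Set.subset_univ _
  have hne : ∀ p ∈ Ω₁, (∀ k, (p.1.1 k).det ≠ 0) ∧ (∀ k, (p.1.2 k).det ≠ 0) ∧ p.2.1.det ≠ 0 ∧
      ∏ j, p.2.2.1 j ≠ 0 := by
    intro p hp
    have h := hp.2
    simp only [Set.mem_ofPred_eq, den₁, mul_ne_zero_iff] at h
    exact ⟨fun k => Finset.prod_ne_zero_iff.1 h.1.1.1 k (Finset.mem_univ k),
      fun k => Finset.prod_ne_zero_iff.1 h.1.1.2 k (Finset.mem_univ k), h.1.2, h.2⟩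
  have hupd : ∀ (F : V → ℂ), RatOn Ω₁ F → ∀ i : Fin (m + 2),
      RatOn Ω₁ fun p => Function.update (1 : Fin (m + 2) → ℂ) 0 (F p) i := by
    intro F hF i
    by_cases h : i = 0
    · subst h; simpa using hF
    · simpa [h] using RatOn.const (V := V) (Ω := Ω₁) 1
  have hnd : ∀ (F : V → Mat (m + 2) ℂ), RatMat Ω₁ F → (∀ p ∈ Ω₁, (F p).det ≠ 0) →
      RatMat Ω₁ fun p => nd (F p) := fun F hF h0 =>
    hF.mul (RatMat.diagonal (hupd _ (hF.det.inv h0)))
  have hh₁ : ∀ k, RatMat Ω₁ fun p => (hh p).1 k := fun k =>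
    hnd _ ((hH₁ k).mono hsub₁) fun p hp => (hne p hp).1 k
  have hh₂ : ∀ k, RatMat Ω₁ fun p => (hh p).2 k := fun k =>
    hnd _ ((hH₂ k).mono hsub₁) fun p hp => (hne p hp).2.1 k
  have hz : RatMat Ω₁ zz := by
    refine RatMat.adjugate ?_
    have := RatMat.list_prod (List.ofFn fun k => fun p : V =>
      (hh p).1 k * (hh p).2 k * adjugate ((hh p).1 k) * adjugate ((hh p).2 k)) fun f hf => by
        obtain ⟨k, rfl⟩ := List.mem_ofFn.1 hf
        exact ((hh₁ k).mul (hh₂ k)).mul (hh₁ k).adjugate |>.mul (hh₂ k).adjugate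
    simpa [rel, List.map_ofFn, Function.comp_def] using this
  have hν₁ : ∀ i, RatOn Ω₁ fun p : V => nu p i := fun i =>
    ((hμ i).mono hsub₁).mul (hupd _ ((RatOn.prod _ _ fun j _ => (hμ j).mono hsub₁).inv
      fun p hp => (hne p hp).2.2.2) i)
  have hd₂ : RatOn Ω₁ (den₂ (g := g) (m := m)) :=
    RatOn.prod _ _ fun i _ => RatOn.prod _ _ fun j _ => (hν₁ i).sub (hν₁ j)
  set Ω₂ : Set V := Ω₁ ∩ {p | den₂ p ≠ 0} with hΩ₂
  have h₂ : RatSet Ω₂ := h₁.inter_ne_zero hd₂
  have hs₂ : Ω₂ ⊆ Ω₁ := Set.inter_subset_left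
  have hmz : RatMat Ω₁ (mz (g := g) (m := m)) :=
    (((hG.mono hsub₁).inv fun p hp => (hne p hp).2.2.1).mul hz).mul (hG.mono hsub₁)
  obtain ⟨h₃, hW, hWi, hL, hU⟩ := fac_rat (m + 1) Ω₂ mz h₂ (hmz.mono hs₂)
  set Ω₃ : Set V := Ω₂ ∩ {p | NZ (m + 1) (mz p)} with hΩ₃
  have hs₃ : Ω₃ ⊆ Ω₁ := Set.inter_subset_left.trans hs₂
  have hfacts : ∀ p ∈ Ω₃, DetOne (hh p) ∧ IsUnit (kk p).det ∧ UpU (fac (m + 1) (mz p)).U ∧
      zz p * bb p = kk p * ((fac (m + 1) (mz p)).L * diagonal (nu p)) * (kk p)⁻¹ ∧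
      (bb p).det = 1 ∧ LoU (fac (m + 1) (mz p)).L := fun p hp => chart_facts hp.1.1.2 hp.2
  have hK : RatMat Ω₃ (kk (g := g) (m := m)) := ((hG.mono hsub₁).mono hs₃).mul hW
  have hν : ∀ i, RatOn Ω₃ fun p : V => nu p i := fun i => (hν₁ i).mono hs₃
  have hb : RatMat Ω₃ (bb (g := g) (m := m)) :=
    (hK.mul ((hU.inv fun p hp => by rw [(hfacts p hp).2.2.1.det]; exact one_ne_zero).mul
      (RatMat.diagonal hν))).mul (hK.inv fun p hp => (hfacts p hp).2.1.ne_zero)
  have hlag : ∀ (A : V → Mat (m + 2) ℂ), RatMat Ω₃ A → ∀ i,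
      RatMat Ω₃ fun p => aeval (A p) (lag (nu p) i) := by
    intro A hA i
    simp only [aeval_lag]
    have := RatMat.list_prod (((Finset.univ.erase i).toList).map fun j => fun p : V =>
      (nu p i - nu p j)⁻¹ • (A p - nu p j • (1 : Mat (m + 2) ℂ))) fun f hf => by
        obtain ⟨j, hj, rfl⟩ := List.mem_map.1 hf
        refine RatMat.smul (((hν i).sub (hν j)).inv fun p hp => sub_ne_zero.2 fun e => ?_)
          (hA.sub (RatMat.smul (hν j) (RatMat.const 1)))
        exact (Finset.mem_erase.1 (Finset.mem_toList.1 hj)).1 (nu_injective hp.1.2 e).symm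
    simpa [List.map_map, Function.comp_def] using this
  have ha₀ : RatMat Ω₃ (a0 (g := g) (m := m)) :=
    RatMat.sum _ _ fun i _ => ((hlag _ ((hz.mono hs₃).mul hb) i).mul
      ((hX.mono hsub₁).mono hs₃)).mul (hlag _ hb i)
  have h₄ : RatSet (dom g m) := h₃.inter_ne_zero ha₀.det
  have hs₄ : dom g m ⊆ Ω₃ := Set.inter_subset_left
  have ha : RatMat (dom g m) (aa (g := g) (m := m)) :=
    (ha₀.mono hs₄).mul ((RatMat.const 1).add (RatMat.smul
      ((((ha₀.mono hs₄).det).inv fun p hp => hp.2).sub (RatOn.const 1))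
        ((hlag _ hb 0).mono hs₄)))
  refine ⟨h₄, fun v => ?_⟩
  rcases v with ⟨k, i, j⟩ | ⟨k, i, j⟩
  · refine Fin.cases ?_ (fun k => ?_) k
    · exact (ha i j).congr fun p _ => rfl
    · exact ((hh₁ k i j).mono (hs₄.trans hs₃)).congr fun p _ => rfl
  · refine Fin.cases ?_ (fun k => ?_) k
    · exact ((hb i j).mono hs₄).congr fun p _ => rfl
    · exact ((hh₂ k i j).mono (hs₄.trans hs₃)).congr fun p _ => rfl

theorem exists_preimage {x : Tup (g + 2) (Mat (m + 2) ℂ)} (hx : IsRep x)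
    (hs : OStar (x.1 0) (x.2 0)) : ∃ p ∈ dom g m, chartMap p = x := by
  obtain ⟨S, P, L, μ, hS, hμi, hμ0, hP, hPd, hL, hLd, hPs, hb, ha⟩ := hs
  set Λ := diagonal μ with hΛ
  set Λi : Mat (m + 2) ℂ := diagonal fun i => (μ i)⁻¹ with hΛi
  have hΛΛi : Λ * Λi = 1 := by simp [hΛ, hΛi, hμ0]
  have hΛiΛ : Λi * Λ = 1 := by simp [hΛ, hΛi, hμ0]
  have hPu : IsUnit P.det := isUnit_iff_ne_zero.2 (det_tri_ne_zero hP hPd)
  have hLu : IsUnit L.det := isUnit_iff_ne_zero.2 (det_ltri_ne_zero hL hLd)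
  have hdb : (x.2 0).det = 1 := hx.1.2 0
  have hda : (x.1 0).det = 1 := hx.1.1 0
  have hprod : ∏ j, μ j = 1 := by
    rw [hb, det_conj_of hS, det_diagonal]
      at hdb
    exact hdb
  set p : CPrm g (m + 2) := (tailT x, S * P, μ, x.1 0) with hp
  have hhh : hh p = tailT x := by
    refine Prod.ext (funext fun i => ?_) (funext fun i => ?_)
    · exact nd_eq_self (hx.1.1 i.succ)
    · exact nd_eq_self (hx.1.2 i.succ)
  have hnu : nu p = μ := by
    funext i
    simp only [nu, hp, hprod, inv_one]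
    rw [show Function.update (1 : Fin (m + 2) → ℂ) 0 1 = 1 by simp [Function.update_eq_self_iff]]
    simp
  have hz : zz p = x.1 0 * x.2 0 * (x.1 0)⁻¹ * (x.2 0)⁻¹ := by
    have hdR : (rel adjugate (tailT x)).det = 1 :=
      det_rel_adjugate ⟨fun i => hx.1.1 i.succ, fun i => hx.1.2 i.succ⟩
    have h1 : x.1 0 * x.2 0 * adjugate (x.1 0) * adjugate (x.2 0) * rel adjugate (tailT x) = 1 := by
      rw [← rel_cons]
      simpa [tailT] using hx.2
    rw [zz, hhh, ← adjugate_eq_nonsing_inv hda, ← adjugate_eq_nonsing_inv hdb]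
    calc adjugate (rel adjugate (tailT x))
        = x.1 0 * x.2 0 * adjugate (x.1 0) * adjugate (x.2 0) * rel adjugate (tailT x) *
            adjugate (rel adjugate (tailT x)) := by rw [h1, one_mul]
      _ = _ := by rw [mul_assoc, mul_adjugate, hdR, one_smul, mul_one]
  set Lo := L * Λ * L⁻¹ * Λi with hLo
  set Up := Λ * P⁻¹ * Λi * P with hUp
  have hPi := tri_inv hP hPu.ne_zero
  have hLi := tri_inv hL hLu.ne_zero
  have hd := fun (f : Fin (m + 2) → ℂ) => blockTriangular_diagonal (b := id) f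
  have hd' := fun (f : Fin (m + 2) → ℂ) => blockTriangular_diagonal (b := OrderDual.toDual) f
  have hLoU : LoU Lo := by
    refine ⟨((hL.mul (hd' _)).mul hLi).mul (hd' _), fun i => ?_⟩
    rw [hLo, mul_diagonal, tri_mul_apply OrderDual.toDual.injective (hL.mul (hd' _)) hLi,
      tri_inv_apply OrderDual.toDual.injective hL hLu.ne_zero, mul_diagonal]
    field_simp [hLd i, hμ0 i]
  have hUpU : UpU Up := by
    refine ⟨(((hd _).mul hPi).mul (hd _)).mul hP, fun i => ?_⟩
    rw [hUp, tri_mul_apply Function.injective_id (((hd _).mul hPi).mul (hd _)) hP, mul_diagonal,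
      diagonal_mul, tri_inv_apply Function.injective_id hP hPu.ne_zero]
    field_simp [hPd i, hμ0 i]
  have hmz : mz p = Lo * Up := by
    have hai : (x.1 0)⁻¹ = S * (L⁻¹ * P⁻¹) * S⁻¹ := by
      rw [ha, Matrix.mul_inv_rev, Matrix.mul_inv_rev, Matrix.mul_inv_rev,
        Matrix.nonsing_inv_nonsing_inv S hS]
      simp only [mul_assoc]
    have hbi : (x.2 0)⁻¹ = S * Λi * S⁻¹ := by
      rw [hb, Matrix.mul_inv_rev, Matrix.mul_inv_rev, Matrix.nonsing_inv_nonsing_inv S hS,
        inv_eq_right_inv hΛΛi, mul_assoc]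
    have hΛiΛ' : ∀ N : Mat (m + 2) ℂ, Λi * (Λ * N) = N := fun N => by
      rw [← mul_assoc, hΛiΛ, one_mul]
    rw [mz, hz, hai, hbi, ha, hb, hLo, hUp, hp]
    simp only [Matrix.mul_inv_rev, mul_assoc, hΛiΛ', Matrix.nonsing_inv_mul_cancel_left _ _ hS,
      Matrix.nonsing_inv_mul_cancel_left _ _ hPu]
  have hsup : ∀ i j : Fin (m + 2), (j : ℕ) = i + 1 → Up i j ≠ 0 := by
    intro i j hij h0
    have hne : i ≠ j := fun e => by rw [e] at hij; omega
    have hkey : P * (Λi * Up) = Λi * P := by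
      simp only [hUp, ← mul_assoc]
      rw [mul_assoc P Λi Λ, hΛiΛ, mul_one, Matrix.mul_nonsing_inv P hPu, one_mul]
    have h1 := congrFun (congrFun hkey i) j
    rw [Matrix.mul_apply, Finset.sum_eq_add i j hne, diagonal_mul, diagonal_mul, diagonal_mul, h0,
      hUpU.2, mul_zero, mul_zero, zero_add, mul_one] at h1
    · have h2 : ((μ j)⁻¹ - (μ i)⁻¹) * P i j = 0 := by linear_combination h1
      exact hne (hμi (inv_injective (sub_eq_zero.1
        ((mul_eq_zero.1 h2).resolve_right (hPs i j hij))))).symm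
    · intro k _ hk
      rcases lt_or_ge k i with h | h
      · rw [hP (show id k < id i from h), zero_mul]
      · have hjk : j < k := by
          rcases lt_trichotomy k j with h' | h' | h'
          · exfalso
            have h1 : (i : ℕ) ≤ k := h
            have h2 : (k : ℕ) < j := h'
            exact hk.1 (Fin.ext (by omega))
          · exact absurd h' hk.2
          · exact h'
        rw [diagonal_mul, hUpU.1 (show id j < id k from hjk), mul_zero, mul_zero]
    · intro h; exact absurd (Finset.mem_univ i) h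
    · intro h; exact absurd (Finset.mem_univ j) h
  obtain ⟨hnz, hfac⟩ := fac_fixed (m + 1) Lo Up hLoU hUpU hsup
  rw [← hmz] at hnz hfac
  have hkk : kk p = S * P := by rw [kk, hfac]; simp [hp]
  have hUinv : Up⁻¹ = P⁻¹ * Λ * P * Λi := by
    refine inv_eq_right_inv ?_
    simp only [hUp, mul_assoc]
    rw [Matrix.mul_nonsing_inv_cancel_left _ _ hPu, ← mul_assoc Λi Λ, hΛiΛ, one_mul,
      Matrix.nonsing_inv_mul_cancel_left _ _ hPu, hΛΛi]
  have hbb : bb p = x.2 0 := by
    rw [bb, hkk, hfac, hnu, hb]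
    simp only [hUinv, ← hΛ, Matrix.mul_inv_rev, mul_assoc,
      Matrix.mul_nonsing_inv_cancel_left _ _ hPu]
    rw [← mul_assoc Λi Λ, hΛiΛ, one_mul, Matrix.mul_nonsing_inv_cancel_left _ _ hPu]
  have hcb : (x.2 0).charpoly = ∏ j, (X - C (μ j)) := by
    rw [hb, charpoly_conj hS, charpoly_diagonal]
  have hau : IsUnit (x.1 0).det := by rw [hda]; exact isUnit_one
  have hbu : IsUnit (x.2 0).det := by rw [hdb]; exact isUnit_one
  have hsc : x.1 0 * x.2 0 = zz p * x.2 0 * x.1 0 := by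
    rw [hz, Matrix.nonsing_inv_mul_cancel_right _ _ hbu,
      Matrix.nonsing_inv_mul_cancel_right _ _ hau]
  have ha0 : a0 p = x.1 0 := by
    rw [a0, hbb, hnu]
    calc ∑ i, aeval (zz p * x.2 0) (lag μ i) * x.1 0 * aeval (x.2 0) (lag μ i)
        = ∑ i, x.1 0 * aeval (x.2 0) (lag μ i) := by
          refine Finset.sum_congr rfl fun i _ => ?_
          rw [← aeval_semiconj hsc, mul_assoc, aeval_lag_idem hμi (by omega) hcb]
      _ = x.1 0 := by rw [← Finset.mul_sum, sum_aeval_lag hμi (by omega), mul_one]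
  refine ⟨p, ⟨⟨⟨⟨trivial, ?_⟩, ?_⟩, hnz⟩, ?_⟩, ?_⟩
  · simp only [Set.mem_ofPred_eq, den₁, hp, mul_ne_zero_iff, Finset.prod_ne_zero_iff]
    refine ⟨⟨⟨fun i _ => ?_, fun i _ => ?_⟩, ?_⟩, fun j _ => hμ0 j⟩
    · simp [tailT, Fin.tail, hx.1.1]
    · simp [tailT, Fin.tail, hx.1.2]
    · rw [det_mul]; exact (hS.mul hPu).ne_zero
  · simp only [Set.mem_ofPred_eq, den₂, hnu, Finset.prod_ne_zero_iff]
    exact fun i _ j hj => sub_ne_zero.2 fun e => (Finset.mem_erase.1 hj).1 (hμi e).symm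
  · simp [ha0, hda]
  · have haa : aa p = x.1 0 := by rw [aa, ha0, hda]; simp
    rw [chartMap, hhh, hbb, haa]
    exact Prod.ext (Fin.cons_self_tail x.1) (Fin.cons_self_tail x.2)

/-- There is a rational map from an open set of parameters to the representations, whose image
contains every representation with first handle in normal form. -/
theorem exists_chart (g m : ℕ) :
    ∃ (Ω : Set (CPrm g (m + 2))) (Ψ : CPrm g (m + 2) → Tup (g + 2) (Mat (m + 2) ℂ)),
      RatSet Ω ∧ (∀ v, RatOn Ω fun p => coords (Ψ p) v) ∧ (∀ p ∈ Ω, IsRep (Ψ p)) ∧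
      ∀ x, IsRep x → OStar (x.1 0) (x.2 0) → ∃ p ∈ Ω, Ψ p = x :=
  ⟨dom g m, chartMap, ratSet_dom_and_rat.1, ratSet_dom_and_rat.2, fun _ hp => isRep_chartMap hp,
    fun _ hx hs => exists_preimage hx hs⟩

end Vale.Agent.P002
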