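import Vale.Agent.P002.Full.Tri

/-!
Spectral projections of a matrix with simple spectrum, as interpolation polynomials.
-/

namespace Vale.Agent.P002

open Matrix Polynomial

variable {r : ℕ} {ν : Fin r → ℂ}

/-- The interpolation polynomial of the `i`-th node. -/
noncomputable def lag (ν : Fin r → ℂ) (i : Fin r) : ℂ[X] := Lagrange.basis Finset.univ ν i

theorem aeval_lag (ν : Fin r → ℂ) (i : Fin r) (A : Mat r ℂ) :
    aeval A (lag ν i) = (((Finset.univ.erase i).toList).map fun j =>
      (ν i - ν j)⁻¹ • (A - ν j • (1 : Mat r ℂ))).prod := by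
  rw [lag, Lagrange.basis, ← Finset.prod_map_toList, map_list_prod, List.map_map]
  congr 1
  refine List.map_congr_left fun j _ => ?_
  simp [Lagrange.basisDivisor, Algebra.algebraMap_eq_smul_one]

theorem sub_mul_lag (ν : Fin r → ℂ) (i : Fin r) :
    (X - C (ν i)) * lag ν i =
      C (∏ j ∈ Finset.univ.erase i, (ν i - ν j)⁻¹) * ∏ j, (X - C (ν j)) := by
  rw [← Finset.mul_prod_erase Finset.univ (fun j => X - C (ν j)) (Finset.mem_univ i), lag,
    Lagrange.basis]
  simp only [Lagrange.basisDivisor, Finset.prod_mul_distrib, map_prod]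
  ring

theorem aeval_eigen {A : Mat r ℂ} (hA : A.charpoly = ∏ j, (X - C (ν j))) (i : Fin r) :
    A * aeval A (lag ν i) = ν i • aeval A (lag ν i) ∧
      aeval A (lag ν i) * A = ν i • aeval A (lag ν i) := by
  have h : aeval A ((X - C (ν i)) * lag ν i) = 0 := by
    rw [sub_mul_lag, ← hA, map_mul, Matrix.aeval_self_charpoly, mul_zero]
  have h' : aeval A (lag ν i * (X - C (ν i))) = 0 := by rwa [mul_comm]
  rw [map_mul, map_sub, aeval_X, aeval_C, Algebra.algebraMap_eq_smul_one, sub_mul, sub_eq_zero,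
    smul_mul_assoc, one_mul] at h
  rw [map_mul, map_sub, aeval_X, aeval_C, Algebra.algebraMap_eq_smul_one, mul_sub, sub_eq_zero,
    mul_smul_comm, mul_one] at h'
  exact ⟨h, h'⟩

theorem sum_aeval_lag (hν : Function.Injective ν) (hr : r ≠ 0) (A : Mat r ℂ) :
    ∑ i, aeval A (lag ν i) = 1 := by
  have : Nonempty (Fin r) := ⟨⟨0, Nat.pos_of_ne_zero hr⟩⟩
  rw [← map_sum]
  simp only [lag]
  rw [Lagrange.sum_basis hν.injOn Finset.univ_nonempty, map_one]

theorem aeval_lag_idem (hν : Function.Injective ν) (hr : r ≠ 0) {A : Mat r ℂ}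
    (hA : A.charpoly = ∏ j, (X - C (ν j))) (i : Fin r) :
    aeval A (lag ν i) * aeval A (lag ν i) = aeval A (lag ν i) := by
  have hz : ∀ j, j ≠ i → aeval A (lag ν i) * aeval A (lag ν j) = 0 := by
    intro j hj
    have h1 : ν i • (aeval A (lag ν i) * aeval A (lag ν j)) =
        ν j • (aeval A (lag ν i) * aeval A (lag ν j)) := by
      rw [← smul_mul_assoc, ← (aeval_eigen hA i).2, mul_assoc, (aeval_eigen hA j).1,
        mul_smul_comm]
    rw [← sub_eq_zero, ← sub_smul] at h1
    exact (smul_eq_zero.1 h1).resolve_left (sub_ne_zero.2 fun e => hj (hν e).symm)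
  conv_rhs => rw [← mul_one (aeval A (lag ν i)), ← sum_aeval_lag hν hr A, Finset.mul_sum,
    Finset.sum_eq_single_of_mem i (Finset.mem_univ i) fun j _ hj => hz j hj]

theorem aeval_semiconj {a A B : Mat r ℂ} (h : a * A = B * a) (p : ℂ[X]) :
    a * aeval A p = aeval B p * a := by
  induction p using Polynomial.induction_on' with
  | add p q hp hq => rw [map_add, map_add, mul_add, add_mul, hp, hq]
  | monomial k c =>
    rw [aeval_monomial, aeval_monomial, Algebra.algebraMap_eq_smul_one, smul_mul_assoc, one_mul,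
      smul_mul_assoc, one_mul, mul_smul_comm, smul_mul_assoc]
    exact congrArg (c • ·) (SemiconjBy.pow_right h k)

theorem tri_aeval {T : Mat r ℂ} (hT : BlockTriangular T id) (p : ℂ[X]) :
    BlockTriangular (aeval T p) id ∧ ∀ i, aeval T p i i = p.eval (T i i) := by
  induction p using Polynomial.induction_on with
  | C a =>
    refine ⟨?_, fun i => ?_⟩
    · rw [aeval_C, Matrix.algebraMap_eq_diagonal]
      exact blockTriangular_diagonal _
    · simp [Matrix.algebraMap_eq_diagonal]
  | add p q hp hq =>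
    exact ⟨by rw [map_add]; exact hp.1.add hq.1, fun i => by simp [hp.2 i, hq.2 i]⟩
  | monomial k a ih =>
    have e : aeval T (C a * X ^ (k + 1)) = aeval T (C a * X ^ k) * T := by
      rw [pow_succ, ← mul_assoc, map_mul, aeval_X]
    refine ⟨by rw [e]; exact ih.1.mul hT, fun i => ?_⟩
    rw [e, tri_mul_apply Function.injective_id ih.1 hT, ih.2, eval_mul, eval_mul, eval_pow,
      eval_pow, eval_X, eval_C, pow_succ, mul_assoc]

theorem det_one_add_smul_lag (hν : Function.Injective ν) {K T : Mat r ℂ} (hK : IsUnit K.det)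
    (hT : BlockTriangular T id) (hd : ∀ j, T j j = ν j) (i : Fin r) (c : ℂ) :
    (1 + c • aeval (K * T * K⁻¹) (lag ν i)).det = 1 + c := by
  have h1 : K * aeval T (lag ν i) = aeval (K * T * K⁻¹) (lag ν i) * K :=
    aeval_semiconj (by rw [Matrix.nonsing_inv_mul_cancel_right _ _ hK]) _
  have h2 : aeval (K * T * K⁻¹) (lag ν i) = K * aeval T (lag ν i) * K⁻¹ := by
    rw [h1, Matrix.mul_nonsing_inv_cancel_right _ _ hK]
  have h3 : 1 + c • (K * aeval T (lag ν i) * K⁻¹) = K * (1 + c • aeval T (lag ν i)) * K⁻¹ := by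
    rw [mul_add, add_mul, mul_one, Matrix.mul_nonsing_inv K hK, mul_smul_comm, smul_mul_assoc]
  rw [h2, h3, det_conj_of hK]
  obtain ⟨h4, h5⟩ := tri_aeval hT (lag ν i)
  rw [det_of_isUpperTriangular (blockTriangular_one.add (fun k l h => by simp [h4 h] : BlockTriangular (c • aeval T (lag ν i)) id)),
    Finset.prod_eq_single_of_mem i (Finset.mem_univ i)]
  · rw [Matrix.add_apply, Matrix.smul_apply, h5, hd]
    simp [lag, Lagrange.eval_basis_self hν.injOn (Finset.mem_univ i)]
  · intro j _ hj
    rw [Matrix.add_apply, Matrix.smul_apply, h5, hd]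
    simp [lag, Lagrange.eval_basis_of_ne (v := ν) hj.symm (Finset.mem_univ j)]

end Vale.Agent.P002
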