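import Vale.Agent.P002.Full.Fac
import Vale.Agent.P002.Full.Lagr
import Vale.Agent.P002.Zar

/-!
The rational map from parameters to representations.
-/

namespace Vale.Agent.P002

open Matrix Polynomial

/-- The parameters of the chart: the other handles, a frame, eigenvalues and a free matrix. -/
abbrev CPrm (g r : ℕ) : Type :=
  Tup (g + 1) (Mat r ℂ) × Mat r ℂ × (Fin r → ℂ) × Mat r ℂ

variable {g m : ℕ}

/-- Rescale the first column to determinant one. -/
noncomputable def nd (A : Mat (m + 2) ℂ) : Mat (m + 2) ℂ :=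
  A * diagonal (Function.update (1 : Fin (m + 2) → ℂ) 0 (A.det)⁻¹)

theorem det_nd {A : Mat (m + 2) ℂ} (h : A.det ≠ 0) : (nd A).det = 1 := by
  rw [nd, det_mul, det_diagonal, Finset.prod_update_of_mem (Finset.mem_univ _)]
  simp [h]

theorem nd_eq_self {A : Mat (m + 2) ℂ} (h : A.det = 1) : nd A = A := by
  have : Function.update (1 : Fin (m + 2) → ℂ) 0 (A.det)⁻¹ = 1 := by
    simp [h, Function.update_eq_self_iff]
  rw [nd, this]
  exact (congrArg (A * ·) diagonal_one).trans (mul_one A)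

/-- The other handles, unimodular. -/
noncomputable def hh (p : CPrm g (m + 2)) : Tup (g + 1) (Mat (m + 2) ℂ) := mapTup nd p.1

/-- The commutator which the first handle has to produce. -/
noncomputable def zz (p : CPrm g (m + 2)) : Mat (m + 2) ℂ := adjugate (rel adjugate (hh p))

/-- The eigenvalues, with product one. -/
noncomputable def nu (p : CPrm g (m + 2)) : Fin (m + 2) → ℂ :=
  fun i => p.2.2.1 i * Function.update (1 : Fin (m + 2) → ℂ) 0 (∏ j, p.2.2.1 j)⁻¹ i

/-- The commutator in the frame. -/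
noncomputable def mz (p : CPrm g (m + 2)) : Mat (m + 2) ℂ := p.2.1⁻¹ * zz p * p.2.1

/-- The corrected frame. -/
noncomputable def kk (p : CPrm g (m + 2)) : Mat (m + 2) ℂ := p.2.1 * (fac (m + 1) (mz p)).W

/-- The second matrix of the first handle. -/
noncomputable def bb (p : CPrm g (m + 2)) : Mat (m + 2) ℂ :=
  kk p * ((fac (m + 1) (mz p)).U⁻¹ * diagonal (nu p)) * (kk p)⁻¹

/-- A matrix intertwining `bb` with `zz * bb`. -/
noncomputable def a0 (p : CPrm g (m + 2)) : Mat (m + 2) ℂ :=
  ∑ i, aeval (zz p * bb p) (lag (nu p) i) * p.2.2.2 * aeval (bb p) (lag (nu p) i)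

/-- The first matrix of the first handle. -/
noncomputable def aa (p : CPrm g (m + 2)) : Mat (m + 2) ℂ :=
  a0 p * (1 + ((a0 p).det⁻¹ - 1) • aeval (bb p) (lag (nu p) 0))

/-- The chart. -/
noncomputable def chartMap (p : CPrm g (m + 2)) : Tup (g + 2) (Mat (m + 2) ℂ) :=
  (Fin.cons (aa p) (hh p).1, Fin.cons (bb p) (hh p).2)

/-- The first denominators. -/
noncomputable def den₁ (p : CPrm g (m + 2)) : ℂ :=
  (∏ i, (p.1.1 i).det) * (∏ i, (p.1.2 i).det) * p.2.1.det * ∏ j, p.2.2.1 j

/-- The discriminant of the eigenvalues. -/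
noncomputable def den₂ (p : CPrm g (m + 2)) : ℂ :=
  ∏ i, ∏ j ∈ Finset.univ.erase i, (nu p i - nu p j)

variable (g m)

/-- The domain of the chart. -/
noncomputable def dom : Set (CPrm g (m + 2)) :=
  (((Set.univ ∩ {p | den₁ p ≠ 0}) ∩ {p | den₂ p ≠ 0}) ∩ {p | NZ (m + 1) (mz p)}) ∩
    {p | (a0 p).det ≠ 0}

end Vale.Agent.P002
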