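import Vale.Agent.P002.Full.Tangent

/-!
A tuple of at least two matrices which keeps a commutant of dimension `d ≥ 2` along a set can only
move in directions spanning a subspace of codimension at least `d`.
-/

namespace Vale.Agent.P002

open Matrix Module Filter Topology
open scoped Matrix.Norms.Operator

variable {r : ℕ} {ι : Type*} [Fintype ι]

/-- The linearised equations of commutation between a deformation of a family and a deformation of
an element of its commutant. -/
noncomputable def linEq (h : ι → Mat r ℂ) (X : Mat r ℂ) (T : Submodule ℂ (Mat r ℂ)) :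
    ((ι → Mat r ℂ) × T) →ₗ[ℂ] (ι → Mat r ℂ) where
  toFun p := adMap h p.2.1 + adMap p.1 X
  map_add' p q := by
    simp only [Prod.fst_add, Prod.snd_add, Submodule.coe_add, map_add,
      ContinuousLinearMap.add_apply]
    abel
  map_smul' c p := by
    simp only [Prod.smul_fst, Prod.smul_snd, Submodule.coe_smul, map_smul,
      ContinuousLinearMap.smul_apply, smul_add, RingHom.id_apply]

theorem finrank_ker_linEq_le (h : ι → Mat r ℂ) (X : Mat r ℂ) (T : Submodule ℂ (Mat r ℂ)) :
    finrank ℂ (LinearMap.ker (linEq h X T)) ≤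
      finrank ℂ T + Fintype.card ι * finrank ℂ (commA (fun _ : Unit => X)) := by
  let σ : LinearMap.ker (linEq h X T) →ₗ[ℂ] T :=
    (LinearMap.snd ℂ (ι → Mat r ℂ) T).comp (LinearMap.ker (linEq h X T)).subtype
  have hmem : ∀ (z : LinearMap.ker σ) (j : ι), z.1.1.1 j ∈ commA (fun _ : Unit => X) :=
    fun z j => by
      rw [mem_commA]
      intro _
      have h2 : z.1.1.2 = 0 := z.2
      have h1 : linEq h X T z.1.1 = 0 := z.1.2
      have h3 : (adMap h z.1.1.2.1 + adMap z.1.1.1 X) j = 0 := congrFun h1 j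
      rw [h2, Submodule.coe_zero, map_zero, zero_add, adMap_apply, sub_eq_zero] at h3
      exact h3.symm
  let τ : LinearMap.ker σ →ₗ[ℂ] (ι → commA (fun _ : Unit => X)) :=
    { toFun := fun z j => ⟨z.1.1.1 j, hmem z j⟩
      map_add' := fun _ _ => rfl
      map_smul' := fun _ _ => rfl }
  have hτ : Function.Injective τ := fun a b hab =>
    Subtype.ext (Subtype.ext (Prod.ext (funext fun j => congrArg Subtype.val (congrFun hab j))
      ((show a.1.1.2 = 0 from a.2).trans (show b.1.1.2 = 0 from b.2).symm)))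
  have h1 := LinearMap.finrank_range_add_finrank_ker (K := ℂ)
    (V := LinearMap.ker (linEq h X T)) (V₂ := T) σ
  have h2 := Submodule.finrank_le (LinearMap.range σ)
  have h3 := LinearMap.finrank_le_finrank_of_injective hτ
  rw [Module.finrank_pi_fintype, Finset.sum_const, Finset.card_univ, smul_eq_mul] at h3
  omega

theorem finrank_add_le (h : ι → Mat r ℂ) (X : Mat r ℂ) (T : Submodule ℂ (Mat r ℂ))
    (hT : commA h ≤ T) (S : Submodule ℂ (ι → Mat r ℂ))
    (hS : ∀ δ ∈ S, ∃ X' ∈ T, adMap h X' + adMap δ X = 0) :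
    finrank ℂ S + finrank ℂ (commA h) ≤
      finrank ℂ T + Fintype.card ι * finrank ℂ (commA (fun _ : Unit => X)) := by
  refine le_trans ?_ (finrank_ker_linEq_le h X T)
  let π : LinearMap.ker (linEq h X T) →ₗ[ℂ] (ι → Mat r ℂ) :=
    (LinearMap.fst ℂ (ι → Mat r ℂ) T).comp (LinearMap.ker (linEq h X T)).subtype
  have h1 : S ≤ LinearMap.range π := fun δ hδ => by
    obtain ⟨X', hX', he⟩ := hS δ hδ
    exact ⟨⟨(δ, ⟨X', hX'⟩), he⟩, rfl⟩
  let τ : commA h →ₗ[ℂ] LinearMap.ker π :=
    { toFun := fun Y => ⟨⟨(0, ⟨Y.1, hT Y.2⟩), by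
          change adMap h Y.1 + adMap (0 : ι → Mat r ℂ) X = 0
          rw [show adMap h Y.1 = 0 from Y.2, map_zero, _root_.zero_apply, add_zero]⟩,
          rfl⟩
      map_add' := fun _ _ => Subtype.ext (Subtype.ext (Prod.ext (by simp) rfl))
      map_smul' := fun _ _ => Subtype.ext (Subtype.ext (Prod.ext (by simp) rfl)) }
  have hτ : Function.Injective τ := fun a b hab =>
    Subtype.ext (congrArg (fun z : LinearMap.ker π => z.1.1.2.1) hab)
  have h2 := LinearMap.finrank_range_add_finrank_ker (K := ℂ)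
    (V := LinearMap.ker (linEq h X T)) (V₂ := ι → Mat r ℂ) π
  have h3 := Submodule.finrank_mono h1
  have h4 := LinearMap.finrank_le_finrank_of_injective hτ
  omega

/-- The bound. -/
theorem commutant_bound {E : Type*} [NormedAddCommGroup E] [NormedSpace ℂ E]
    (hι : 2 ≤ Fintype.card ι) (π : E →L[ℂ] (ι → Mat r ℂ)) {Z : Set E} (hZ : Z.Nonempty) {d : ℕ}
    (hd : 2 ≤ d) (hdim : ∀ x ∈ Z, finrank ℂ (commA (π x)) = d) :
    ∃ x ∈ Z, ∀ S : Submodule ℂ (ι → Mat r ℂ),
      (∀ δ ∈ S, ∃ (γ : ℂ → E) (v : E), γ 0 = x ∧ (∀ᶠ s in 𝓝 0, γ s ∈ Z) ∧ HasDerivAt γ v 0 ∧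
        π v = δ) →
      finrank ℂ S + d ≤ Fintype.card ι * (r * r) := by
  classical
  have hP : ∃ k, ∃ x ∈ Z, ∃ X ∈ commA (π x), ∀ μ, eigDim X μ ≤ k :=
    ⟨r, _, hZ.choose_spec, 1, one_mem_commA _, eigDim_le 1⟩
  set k := Nat.find hP with hk
  obtain ⟨x, hx, X, hX, hle⟩ := Nat.find_spec hP
  have hkr : k < r := by
    by_contra hcon
    obtain ⟨x0, hx0⟩ := hZ
    have hr : r ≠ 0 := by
      rintro rfl
      have h0 := hdim x0 hx0
      have := Submodule.finrank_le (commA (π x0))
      rw [Module.finrank_matrix, Fintype.card_fin, zero_mul, zero_mul] at this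
      omega
    have : NeZero r := ⟨hr⟩
    have hns : ¬ SchurF (π x0) := fun hs => by
      have := (schurF_iff_finrank hr _).1 hs
      rw [hdim x0 hx0] at this
      omega
    rw [SchurF] at hns
    push Not at hns
    obtain ⟨Y, hY, hns⟩ := hns
    have hlt : ∀ μ, eigDim Y μ ≤ r - 1 := fun μ => by
      have h1 := eigDim_le Y μ
      by_contra h2
      have h3 : LinearMap.ker (Matrix.toLin' (Y - μ • 1)) = ⊤ := by
        refine Submodule.eq_top_of_finrank_eq ?_
        rw [finrank_fin_fun]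
        change eigDim Y μ = r
        omega
      refine hns μ (sub_eq_zero.1 (Matrix.toLin'.injective ?_))
      rw [map_zero]
      exact LinearMap.ker_eq_top.1 h3
    have := Nat.find_min' hP ⟨x0, hx0, Y, mem_commA.2 hY, hlt⟩
    omega
  have hmin : ∀ y ∈ Z, ∀ Y ∈ commA (π y), ∃ μ, k ≤ eigDim Y μ := fun y hy Y hY => by
    by_contra hcon
    push Not at hcon
    have h0 : 0 < k := lt_of_le_of_lt (Nat.zero_le _) (hcon 0)
    exact Nat.find_min hP (show k - 1 < k by omega)
      ⟨y, hy, Y, hY, fun μ => by have := hcon μ; omega⟩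
  obtain ⟨T, hTr, hT⟩ := exists_tangent_space X hkr hle (hmin x hx X hX)
  refine ⟨x, hx, fun S hS => ?_⟩
  have hAT : commA (π x) ≤ T := fun Y hY => by
    have hlin : HasDerivAt (fun s : ℂ => X + s • Y) Y 0 := by
      have h := ((hasDerivAt_id (0 : ℂ)).smul_const Y).const_add X
      rwa [one_smul] at h
    exact hT _ (by simp) Y hlin (Eventually.of_forall fun s =>
      hmin x hx _ (Submodule.add_mem _ hX (Submodule.smul_mem _ s hY)))
  have hS' : ∀ δ ∈ S, ∃ X' ∈ T, adMap (π x) X' + adMap δ X = 0 := fun δ hδ => by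
    obtain ⟨γ, v, hγ0, hγZ, hγ, rfl⟩ := hS δ hδ
    let Φ : ℂ → Mat r ℂ →L[ℂ] (ι → Mat r ℂ) := fun s => adMap (π (γ s))
    have hΦd : HasDerivAt Φ (adMap (π v)) 0 := hasDerivAt_family adMap π hγ
    have hge : ∀ᶠ s in 𝓝 0, finrank ℂ (Φ 0).ker ≤ finrank ℂ (Φ s).ker := hγZ.mono fun s hs => by
      change finrank ℂ (commA (π (γ 0))) ≤ finrank ℂ (commA (π (γ s)))
      rw [hγ0, hdim x hx, hdim _ hs]
    obtain ⟨w, hw0, hwk, -, hwd⟩ := exists_ker_curve hΦd.continuousAt hge (u := X) (by
      change adMap (π (γ 0)) X = 0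
      rw [hγ0]
      exact hX)
    have hw := (hwd hΦd.differentiableAt).hasDerivAt
    refine ⟨deriv w 0, hT w hw0 _ hw ?_, ?_⟩
    · filter_upwards [hwk, hγZ] with s h1 h2
      exact hmin _ h2 _ h1
    · have h1 := hΦd.clm_apply hw
      have h2 := h1.unique ((hasDerivAt_const (0 : ℂ) (0 : ι → Mat r ℂ)).congr_of_eventuallyEq hwk)
      rw [hw0] at h2
      change adMap (π v) X + adMap (π (γ 0)) _ = 0 at h2
      rw [hγ0, add_comm] at h2
      exact h2
  have h1 := finrank_add_le (π x) X T hAT S hS'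
  have h2 := finrank_centralizer_le X hle
  rw [hdim x hx] at h1
  have h3 : r * k ≤ r * r := Nat.mul_le_mul_left r hkr.le
  obtain ⟨N, hN⟩ := Nat.exists_eq_add_of_le hι
  rw [hN] at h1 ⊢
  have h4 := Nat.mul_le_mul_left N h3
  have h5 := Nat.mul_le_mul_left (2 + N) h2
  rw [Nat.add_mul, Nat.add_mul] at h5
  rw [Nat.add_mul] at h1 ⊢
  clear_value k
  subst hk
  omega

end Vale.Agent.P002
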