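import Vale.Agent.P002.Full.Basic

/-!
Triangular matrices and block decompositions along the first index.
-/

namespace Vale.Agent.P002

open Matrix

variable {n r : ℕ} {α : Type*} [LinearOrder α] {f : Fin r → α}

/-- The diagonal of a product of triangular matrices. -/
theorem tri_mul_apply (hf : Function.Injective f) {A B : Mat r ℂ} (hA : BlockTriangular A f)
    (hB : BlockTriangular B f) (i : Fin r) : (A * B) i i = A i i * B i i := by
  rw [Matrix.mul_apply]
  refine Finset.sum_eq_single_of_mem i (Finset.mem_univ i) fun k _ hk => ?_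
  rcases lt_or_gt_of_ne (fun h => hk (hf h)) with h | h
  · rw [hA h, zero_mul]
  · rw [hB h, mul_zero]

theorem det_tri_ne_zero {A : Mat r ℂ} (hA : BlockTriangular A id) (hd : ∀ i, A i i ≠ 0) :
    A.det ≠ 0 := by
  rw [det_of_isUpperTriangular hA]
  exact Finset.prod_ne_zero_iff.2 fun i _ => hd i

theorem det_ltri_ne_zero {A : Mat r ℂ} (hA : BlockTriangular A OrderDual.toDual)
    (hd : ∀ i, A i i ≠ 0) : A.det ≠ 0 := by
  rw [det_of_isLowerTriangular _ hA]
  exact Finset.prod_ne_zero_iff.2 fun i _ => hd i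

theorem tri_inv {A : Mat r ℂ} (hA : BlockTriangular A f) (hd : A.det ≠ 0) :
    BlockTriangular A⁻¹ f := by
  have : Invertible A := Matrix.invertibleOfIsUnitDet A (isUnit_iff_ne_zero.2 hd)
  exact blockTriangular_inv_of_blockTriangular hA

theorem tri_inv_apply (hf : Function.Injective f) {A : Mat r ℂ} (hA : BlockTriangular A f)
    (hd : A.det ≠ 0) (i : Fin r) : A⁻¹ i i = (A i i)⁻¹ := by
  have h := tri_mul_apply hf hA (tri_inv hA hd) i
  rw [Matrix.mul_nonsing_inv _ (isUnit_iff_ne_zero.2 hd), one_apply_eq] at h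
  exact eq_inv_of_mul_eq_one_right h.symm

/-- Upper triangular with ones on the diagonal. -/
def UpU (U : Mat r ℂ) : Prop := BlockTriangular U id ∧ ∀ i, U i i = 1

/-- Lower triangular with ones on the diagonal. -/
def LoU (L : Mat r ℂ) : Prop := BlockTriangular L OrderDual.toDual ∧ ∀ i, L i i = 1

theorem UpU.det {U : Mat r ℂ} (h : UpU U) : U.det = 1 := by
  rw [det_of_isUpperTriangular h.1]
  exact Finset.prod_eq_one fun i _ => h.2 i

theorem LoU.det {L : Mat r ℂ} (h : LoU L) : L.det = 1 := by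
  rw [det_of_isLowerTriangular _ h.1]
  exact Finset.prod_eq_one fun i _ => h.2 i

theorem charpoly_conj {K : Mat r ℂ} (hK : IsUnit K.det) (T : Mat r ℂ) :
    (K * T * K⁻¹).charpoly = T.charpoly := by
  rw [charpoly_mul_comm, ← mul_assoc, Matrix.nonsing_inv_mul K hK, one_mul]

theorem det_conj_of {K : Mat r ℂ} (hK : IsUnit K.det) (T : Mat r ℂ) :
    (K * T * K⁻¹).det = T.det :=
  Matrix.det_conj ((Matrix.isUnit_iff_isUnit_det K).2 hK) T

theorem det_conj_of' {K : Mat r ℂ} (hK : IsUnit K.det) (T : Mat r ℂ) :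
    (K⁻¹ * T * K).det = T.det :=
  Matrix.det_conj' ((Matrix.isUnit_iff_isUnit_det K).2 hK) T

/-- A matrix from a corner, a row, a column and a block. -/
def blk (a : ℂ) (u c : Fin n → ℂ) (D : Mat n ℂ) : Mat (n + 1) ℂ :=
  Matrix.of (Fin.cons (Fin.cons a u) fun i => Fin.cons (c i) (D i))

variable (a : ℂ) (u c : Fin n → ℂ) (D : Mat n ℂ)

@[simp] theorem blk_zero_zero : blk a u c D 0 0 = a := by simp [blk]

@[simp] theorem blk_zero_succ (j : Fin n) : blk a u c D 0 j.succ = u j := by simp [blk]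

@[simp] theorem blk_succ_zero (i : Fin n) : blk a u c D i.succ 0 = c i := by simp [blk]

@[simp] theorem blk_succ_succ (i j : Fin n) : blk a u c D i.succ j.succ = D i j := by simp [blk]

theorem blk_mul_blk (a' : ℂ) (u' c' : Fin n → ℂ) (D' : Mat n ℂ) :
    blk a u c D * blk a' u' c' D' =
      blk (a * a' + u ⬝ᵥ c') (a • u' + u ᵥ* D') (a' • c + D *ᵥ c') (vecMulVec c u' + D * D') := by
  ext i j
  refine Fin.cases ?_ (fun i => ?_) i <;> refine Fin.cases ?_ (fun j => ?_) j <;>
    simp [Matrix.mul_apply, Fin.sum_univ_succ, dotProduct, vecMul, mulVec, vecMulVec, mul_comm]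

theorem blk_one : blk 1 0 0 (1 : Mat n ℂ) = 1 := by
  ext i j
  refine Fin.cases ?_ (fun i => ?_) i <;> refine Fin.cases ?_ (fun j => ?_) j <;>
    simp [Matrix.one_apply, (Fin.succ_ne_zero _).symm]

theorem eq_blk (M : Mat (n + 1) ℂ) :
    M = blk (M 0 0) (fun j => M 0 j.succ) (fun i => M i.succ 0)
      (M.submatrix Fin.succ Fin.succ) := by
  ext i j
  refine Fin.cases ?_ (fun i => ?_) i <;> refine Fin.cases ?_ (fun j => ?_) j <;> simp

theorem det_blk_upper : (blk a u 0 D).det = a * D.det := by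
  rw [Matrix.det_succ_column_zero, Fin.sum_univ_succ]
  have h : (blk a u 0 D).submatrix Fin.succ Fin.succ = D := by ext i j; simp
  simp [h]

theorem blk_upper {a : ℂ} {u : Fin n → ℂ} {D : Mat n ℂ} (hD : BlockTriangular D id) :
    BlockTriangular (blk a u 0 D) id := by
  intro i
  refine Fin.cases ?_ (fun i => ?_) i
  · intro j h
    exact absurd h (not_lt_bot)
  · intro j
    refine Fin.cases ?_ (fun j => ?_) j
    · intro _; simp
    · intro h; rw [blk_succ_succ]; exact hD (Fin.succ_lt_succ_iff.1 h)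

theorem blk_lower {a : ℂ} {c : Fin n → ℂ} {D : Mat n ℂ} (hD : BlockTriangular D OrderDual.toDual) :
    BlockTriangular (blk a 0 c D) OrderDual.toDual := by
  intro i j
  refine Fin.cases ?_ (fun j => ?_) j
  · intro h
    exact absurd (OrderDual.toDual_lt_toDual.1 h) (not_lt_bot)
  · refine Fin.cases ?_ (fun i => ?_) i
    · intro _; simp
    · intro h
      rw [blk_succ_succ]
      exact hD (OrderDual.toDual_lt_toDual.2 (Fin.succ_lt_succ_iff.1 (OrderDual.toDual_lt_toDual.1 h)))

end Vale.Agent.P002
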