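import Vale.Agent.P002.Generic
import Vale.Agent.P002.Full.Tri

/-!
Pairs in normal form are dense and have only scalar commutant.
-/

namespace Vale.Agent.P002

open Matrix

theorem OStar.schurF {r : ℕ} {a b : Mat r ℂ} (h : OStar a b) : SchurF ![a, b] := by
  obtain ⟨S, P, L, μ, hS, hμ, -, hP, hPd, hL, hLd, hPs, rfl, rfl⟩ := h
  intro Y hY
  set Z := S⁻¹ * Y * S with hZ
  have hconj : ∀ A : Mat r ℂ, Y * (S * A * S⁻¹) = S * A * S⁻¹ * Y → Z * A = A * Z := by
    intro A hA
    have h1 := congrArg (fun M => S⁻¹ * M * S) hA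
    simp only [mul_assoc, Matrix.nonsing_inv_mul S hS, mul_one,
      Matrix.nonsing_inv_mul_cancel_left _ _ hS] at h1
    simpa [hZ, mul_assoc, Matrix.nonsing_inv_mul_cancel_left _ _ hS] using h1
  have hb : Z * diagonal μ = diagonal μ * Z := hconj _ (by simpa using hY 1)
  have ha : Z * (P * L) = P * L * Z := hconj _ (by simpa using hY 0)
  have hZd : Z = diagonal fun i => Z i i := by
    ext i j
    by_cases hij : i = j
    · subst hij; simp
    · rw [diagonal_apply_ne _ hij]
      have h1 := congrFun (congrFun hb i) j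
      rw [mul_diagonal, diagonal_mul] at h1
      refine (mul_eq_zero.1 (?_ : (μ j - μ i) * Z i j = 0)).resolve_left
        (sub_ne_zero.2 fun e => hij (hμ e).symm)
      linear_combination h1
  set d : Fin r → ℂ := fun i => Z i i
  rw [hZd] at ha
  have hPu : IsUnit P.det := isUnit_iff_ne_zero.2 (det_tri_ne_zero hP hPd)
  have hLu : IsUnit L.det := isUnit_iff_ne_zero.2 (det_ltri_ne_zero hL hLd)
  have hQ : P⁻¹ * diagonal d * P = L * diagonal d * L⁻¹ := by
    calc P⁻¹ * diagonal d * P = P⁻¹ * (diagonal d * (P * L)) * L⁻¹ := by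
          simp [mul_assoc, Matrix.mul_nonsing_inv L hLu]
      _ = P⁻¹ * (P * L * diagonal d) * L⁻¹ := by rw [ha]
      _ = L * diagonal d * L⁻¹ := by
          simp [mul_assoc, Matrix.nonsing_inv_mul_cancel_left _ _ hPu]
  have hPi := tri_inv hP hPu.ne_zero
  have hLi := tri_inv hL hLu.ne_zero
  have hup : BlockTriangular (P⁻¹ * diagonal d * P) id :=
    (hPi.mul (blockTriangular_diagonal d)).mul hP
  have hlo : BlockTriangular (P⁻¹ * diagonal d * P) OrderDual.toDual := by
    rw [hQ]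
    exact (hL.mul (blockTriangular_diagonal d)).mul hLi
  have hdiag : P⁻¹ * diagonal d * P = diagonal d := by
    ext i j
    rcases lt_trichotomy i j with h | rfl | h
    · rw [hlo (OrderDual.toDual_lt_toDual.2 h), diagonal_apply_ne _ h.ne]
    · rw [tri_mul_apply Function.injective_id (hPi.mul (blockTriangular_diagonal d)) hP,
        tri_mul_apply Function.injective_id hPi (blockTriangular_diagonal d),
        tri_inv_apply Function.injective_id hP hPu.ne_zero, diagonal_apply_eq]
      field_simp [hPd i]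
    · rw [hup h, diagonal_apply_ne _ h.ne']
  have hcomm : diagonal d * P = P * diagonal d := by
    calc diagonal d * P = P * (P⁻¹ * diagonal d * P) := by
          simp [mul_assoc, Matrix.mul_nonsing_inv_cancel_left _ _ hPu]
      _ = _ := by rw [hdiag]
  rcases Nat.eq_zero_or_pos r with rfl | hr
  · exact ⟨0, Subsingleton.elim _ _⟩
  have hall : ∀ k, ∀ hk : k < r, d ⟨k, hk⟩ = d ⟨0, hr⟩ := by
    intro k
    induction k with
    | zero => exact fun _ => rfl
    | succ k ih =>
      intro hk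
      rw [← ih (k.lt_succ_self.trans hk)]
      have h1 := congrFun (congrFun hcomm ⟨k, k.lt_succ_self.trans hk⟩) ⟨k + 1, hk⟩
      rw [mul_diagonal, diagonal_mul] at h1
      refine sub_eq_zero.1 ((mul_eq_zero.1 ?_).resolve_left
        (hPs ⟨k, k.lt_succ_self.trans hk⟩ ⟨k + 1, hk⟩ rfl))
      linear_combination -h1
  refine ⟨d ⟨0, hr⟩, ?_⟩
  have hZs : Z = d ⟨0, hr⟩ • (1 : Mat r ℂ) := by
    rw [hZd, smul_one_eq_diagonal]
    congr 1
    funext i
    exact hall i i.2
  calc Y = S * Z * S⁻¹ := by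
        simp [hZ, mul_assoc, Matrix.mul_nonsing_inv S hS,
          Matrix.mul_nonsing_inv_cancel_left _ _ hS]
    _ = _ := by rw [hZs]; simp [Matrix.mul_nonsing_inv S hS]

theorem OStar.smul {r : ℕ} {a b : Mat r ℂ} (h : OStar a b) {c d : ℂ} (hc : c ≠ 0) (hd : d ≠ 0) :
    OStar (c • a) (d • b) := by
  obtain ⟨S, P, L, μ, hS, hμ, hμ0, hP, hPd, hL, hLd, hPs, rfl, rfl⟩ := h
  refine ⟨S, c • P, L, fun i => d * μ i, hS, fun i j e => hμ (mul_left_cancel₀ hd e),
    fun i => mul_ne_zero hd (hμ0 i), fun i j e => by simp [hP e],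
    fun i => by simpa using ⟨hc, hPd i⟩, hL, hLd, fun i j e => by simpa using ⟨hc, hPs i j e⟩,
    ?_, by simp⟩
  have : diagonal (fun i => d * μ i) = d • diagonal μ := by
    ext i j
    by_cases h : i = j <;> simp [h]
  simp [this]

/-- Matrices with a triangular factorisation and nowhere vanishing subdiagonal are dense. -/
theorem exists_lu_near : ∀ {r : ℕ} (T : Mat r ℂ) {O : Set (Mat r ℂ)}, IsOpen O → T ∈ O →
    ∃ L U : Mat r ℂ, L * U ∈ O ∧ LoU L ∧ BlockTriangular U id ∧ (∀ i, U i i ≠ 0) ∧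
      ∀ i j : Fin r, (i : ℕ) = j + 1 → L i j ≠ 0
  | 0, T, O, _, hT => ⟨1, 1, by rwa [Subsingleton.elim (1 * 1 : Mat 0 ℂ) T],
      ⟨blockTriangular_one, fun i => i.elim0⟩, blockTriangular_one, fun i => i.elim0,
      fun i => i.elim0⟩
  | n + 1, T, O, hO, hT => by
    let u : Fin n → ℂ := fun j => T 0 j.succ
    let D : Mat n ℂ := T.submatrix Fin.succ Fin.succ
    have hΦ : Continuous fun v : ℂ × (Fin n → ℂ) => blk v.1 u v.2 D := by
      refine continuous_matrix fun i j => ?_
      refine Fin.cases ?_ (fun i => ?_) i <;> refine Fin.cases ?_ (fun j => ?_) j <;>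
        simp <;> fun_prop
    have hdense : Dense {v : ℂ × (Fin n → ℂ) | v.1 ≠ 0 ∧ ∀ i, v.2 i ≠ 0} := by
      have h1 : Dense (Set.univ.pi fun _ : Fin n => ({0}ᶜ : Set ℂ)) :=
        dense_pi Set.univ fun i _ => dense_compl_singleton 0
      refine ((dense_compl_singleton (0 : ℂ)).prod h1).mono ?_
      rintro ⟨x, y⟩ ⟨hx, hy⟩
      exact ⟨hx, fun i => hy i trivial⟩
    obtain ⟨⟨a, c⟩, hac, ha, hc⟩ := dense_iff_inter_open.1 hdense _ (hO.preimage hΦ)
      ⟨(T 0 0, fun i => T i.succ 0), by simpa [u, D, ← eq_blk T] using hT⟩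
    simp only [Set.mem_preimage] at hac ha hc
    have hΨ : Continuous fun E : Mat n ℂ => blk a u c (vecMulVec (a⁻¹ • c) u + E) := by
      refine continuous_matrix fun i j => ?_
      refine Fin.cases ?_ (fun i => ?_) i <;> refine Fin.cases ?_ (fun j => ?_) j <;>
        simp <;> fun_prop
    obtain ⟨L, U, hLU, hL, hU, hUd, hLs⟩ := exists_lu_near (D - vecMulVec (a⁻¹ • c) u)
      (hO.preimage hΨ) (by simpa using hac)
    refine ⟨blk 1 0 (a⁻¹ • c) L, blk a u 0 U, ?_, ⟨blk_lower hL.1, fun i => ?_⟩, blk_upper hU,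
      fun i => ?_, fun i j hij => ?_⟩
    · have e : blk 1 0 (a⁻¹ • c) L * blk a u 0 U =
          blk a u c (vecMulVec (a⁻¹ • c) u + L * U) := by
        rw [blk_mul_blk]
        simp [ha]
      rw [e]
      exact hLU
    · refine Fin.cases ?_ (fun i => ?_) i <;> simp [hL.2]
    · refine Fin.cases ?_ (fun i => ?_) i <;> simp [hUd, ha]
    · revert hij
      refine Fin.cases ?_ (fun i => ?_) i
      · simp
      · refine Fin.cases ?_ (fun j => ?_) j
        · intro _
          simpa [ha] using hc i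
        · intro hij
          simp only [Fin.val_succ] at hij
          simpa using hLs i j (by omega)

theorem exists_ostar_near {r : ℕ} {a b : Mat r ℂ} (ha : a.det ≠ 0) (hb : b.det ≠ 0)
    {O : Set (Mat r ℂ × Mat r ℂ)} (hO : IsOpen O) (hab : (a, b) ∈ O) :
    ∃ a' b', (a', b') ∈ O ∧ a'.det ≠ 0 ∧ b'.det ≠ 0 ∧ OStar a' b' := by
  obtain ⟨A, B, hA, hB, haA, hbB, hsub⟩ := isOpen_prod_iff.1 hO a b hab
  have hbB' : b ∈ B ∩ {x | x.det ≠ 0} := ⟨hbB, hb⟩
  obtain ⟨b', ⟨hb'B, -⟩, hsep, hb'⟩ := exists_separable_near b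
    (hB.inter (isOpen_ne_fun (continuous_id.matrix_det) continuous_const)) hbB'
  obtain ⟨S, μ, hS, rfl⟩ := exists_diagonalisation b' hsep
  have hμ : Function.Injective μ := by
    have h1 : (S * diagonal μ * S⁻¹).charpoly = (diagonal μ).charpoly := charpoly_conj hS _
    rw [h1, charpoly_diagonal] at hsep
    exact Polynomial.separable_prod_X_sub_C_iff.1 hsep
  have hμ0 : ∀ i, μ i ≠ 0 := fun i h => hb' (by
    rw [det_mul, det_mul, det_diagonal, Finset.prod_eq_zero (Finset.mem_univ i) h]; simp)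
  let σ : Fin r ≃ Fin r := Fin.revPerm
  let rv : Mat r ℂ → Mat r ℂ := fun T => T.submatrix σ σ
  have hrv : ∀ T, rv (rv T) = T := fun T => by ext i j; simp [rv, σ]
  have hrvc : Continuous rv := continuous_id.matrix_submatrix σ σ
  have hΦ : Continuous fun T : Mat r ℂ => S * rv T * S⁻¹ :=
    (continuous_const.matrix_mul hrvc).matrix_mul continuous_const
  obtain ⟨L, U, hLU, hL, hU, hUd, hLs⟩ := exists_lu_near (rv (S⁻¹ * a * S)) (hA.preimage hΦ)
    (by
      simp only [Set.mem_preimage, hrv]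
      simpa [mul_assoc, Matrix.mul_nonsing_inv_cancel_left _ _ hS,
        Matrix.mul_nonsing_inv S hS] using haA)
  have hmul : rv (L * U) = rv L * rv U := (submatrix_mul_equiv L U σ σ σ).symm
  have hP : BlockTriangular (rv L) id := fun i j h => hL.1 (by
    simpa [σ] using (h : j < i))
  have hQ : BlockTriangular (rv U) OrderDual.toDual := fun i j h => hU (by
    simpa [σ] using h)
  refine ⟨S * rv (L * U) * S⁻¹, _, hsub ⟨hLU, hb'B⟩, ?_, hb', S, rv L, rv U, μ, hS, hμ, hμ0, hP,
    fun i => by simp [rv, hL.2], hQ, fun i => hUd _, fun i j hij => ?_, rfl, by rw [hmul]⟩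
  · rw [det_conj_of hS]
    simp only [rv, det_submatrix_equiv_self, det_mul, hL.det, one_mul]
    exact det_tri_ne_zero hU hUd
  · refine hLs _ _ ?_
    simp only [σ, Fin.revPerm_apply, Fin.val_rev]
    omega

end Vale.Agent.P002
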