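import Vale.Agent.P002.Full.Open
import Vale.Agent.P002.Full.Commutant
import Vale.Agent.P002.Full.Normal

/-!
Near every Schur representation there is one whose first handle is in normal form.
-/

namespace Vale.Agent.P002

open Matrix Module Filter Topology
open scoped Matrix.Norms.Operator

variable {n g r : ℕ}

/-- The family of a tuple, as a linear equivalence. -/
def famE (n r : ℕ) : Tup n (Mat r ℂ) ≃ₗ[ℂ] (Fin n ⊕ Fin n → Mat r ℂ) :=
  (LinearEquiv.sumArrowLequivProdArrow (Fin n) (Fin n) ℂ (Mat r ℂ)).symm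

theorem famE_apply (x : Tup n (Mat r ℂ)) : famE n r x = fam x := by
  funext j
  rcases j with i | i <;> rfl

/-- The family of a tuple, as a continuous linear map. -/
noncomputable def famC (n r : ℕ) : Tup n (Mat r ℂ) →L[ℂ] (Fin n ⊕ Fin n → Mat r ℂ) :=
  LinearMap.toContinuousLinearMap (famE n r).toLinearMap

theorem famC_apply (x : Tup n (Mat r ℂ)) : famC n r x = fam x := famE_apply x

/-- The dimension of the commutant of a tuple. -/
noncomputable def dA (x : Tup n (Mat r ℂ)) : ℕ := finrank ℂ (commA (fam x))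

theorem eventually_dA_le {m : ℕ} (q : Tup n (Mat r ℂ) →L[ℂ] Tup m (Mat r ℂ))
    (x : Tup n (Mat r ℂ)) : ∀ᶠ y in 𝓝 x, dA (q y) ≤ dA (q x) := by
  have h : ContinuousAt (fun y => adMap (famC m r (q y))) x :=
    ((adMap (ι := Fin m ⊕ Fin m) (r := r)).continuous.comp
      ((famC m r).continuous.comp q.continuous)).continuousAt
  refine (eventually_finrank_ker_le h).mono fun y hy => ?_
  rw [famC_apply, famC_apply] at hy
  exact hy

theorem schurF_pair_or_tail {x : Tup (g + 1) (Mat r ℂ)}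
    (h : SchurF (fam (pairT x)) ∨ SchurF (fam (tailT x))) : Schur x := by
  intro Y hY
  rcases h with h | h <;> refine h Y ?_ <;> rintro (i | i)
  · exact hY (Sum.inl 0)
  · exact hY (Sum.inr 0)
  · exact hY (Sum.inl i.succ)
  · exact hY (Sum.inr i.succ)

/-- The preimage of a subspace is large. -/
theorem finrank_comap_add {V M : Type*} [AddCommGroup V] [Module ℂ V] [FiniteDimensional ℂ V]
    [AddCommGroup M] [Module ℂ M] [FiniteDimensional ℂ M] (f : V →ₗ[ℂ] M) (R K : Submodule ℂ M)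
    (hf : LinearMap.range f ≤ K) (hR : R ≤ K) :
    finrank ℂ V + finrank ℂ R ≤ finrank ℂ (R.comap f) + finrank ℂ K := by
  let F : (V × R) →ₗ[ℂ] M := f.comp (LinearMap.fst ℂ V R) - R.subtype.comp (LinearMap.snd ℂ V R)
  have hF : LinearMap.range F ≤ K := by
    rintro _ ⟨p, rfl⟩
    exact K.sub_mem (hf ⟨p.1, rfl⟩) (hR p.2.2)
  have hmem : ∀ p : LinearMap.ker F, f p.1.1 = p.1.2.1 := fun p =>
    sub_eq_zero.1 (show F p.1 = 0 from p.2)
  let τ : LinearMap.ker F →ₗ[ℂ] R.comap f :=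
    { toFun := fun p => ⟨p.1.1, by rw [Submodule.mem_comap, hmem p]; exact p.1.2.2⟩
      map_add' := fun _ _ => rfl
      map_smul' := fun _ _ => rfl }
  have hτ : Function.Injective τ := fun p q h => by
    have h1 : p.1.1 = q.1.1 := congrArg Subtype.val h
    refine Subtype.ext (Prod.ext h1 (Subtype.ext ?_))
    rw [← hmem p, ← hmem q, h1]
  have h1 := F.finrank_range_add_finrank_ker
  have h2 := Submodule.finrank_mono hF
  have h3 := LinearMap.finrank_le_finrank_of_injective hτ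
  rw [Module.finrank_prod] at h1
  omega

/-- The bound for a block, given the range of the complementary one. -/
theorem dA_le_of_block {E : Type*} [NormedAddCommGroup E] [NormedSpace ℂ E] (hr : r ≠ 0) {k : ℕ}
    (hk : 1 ≤ k) (q : E →L[ℂ] Tup k (Mat r ℂ)) {Z : Set E} (hZ : Z.Nonempty) {d d' : ℕ}
    (hd : 2 ≤ d) (hdim : ∀ x ∈ Z, dA (q x) = d)
    (hblock : ∀ x ∈ Z, ∃ (f : Tup k (Mat r ℂ) →ₗ[ℂ] Mat r ℂ) (R : Submodule ℂ (Mat r ℂ)),
      LinearMap.range f ≤ slM r ∧ R ≤ slM r ∧ r * r ≤ finrank ℂ R + d' ∧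
      ∀ w ∈ R.comap f, ∃ (γ : ℂ → E) (v : E), γ 0 = x ∧ (∀ᶠ s in 𝓝 0, γ s ∈ Z) ∧
        HasDerivAt γ v 0 ∧ q v = w) :
    d + 1 ≤ d' := by
  obtain ⟨x, hx, hS⟩ := commutant_bound (ι := Fin k ⊕ Fin k)
    (by rw [Fintype.card_sum, Fintype.card_fin]; omega) ((famC k r).comp q) hZ hd
    (fun x hx => by
      have h := hdim x hx
      rw [dA, ← famC_apply] at h
      exact h)
  obtain ⟨f, R, hf, hR, hrank, hcurve⟩ := hblock x hx
  have h1 := hS ((R.comap f).map (famE k r).toLinearMap) (by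
    rintro δ ⟨w, hw, rfl⟩
    obtain ⟨γ, v, h1, h2, h3, h4⟩ := hcurve w hw
    refine ⟨γ, v, h1, h2, h3, ?_⟩
    rw [ContinuousLinearMap.comp_apply, h4]
    rfl)
  rw [LinearEquiv.finrank_map_eq] at h1
  have h2 := finrank_comap_add f R (slM r) hf hR
  have h3 := finrank_slM hr
  have h4 : finrank ℂ (Tup k (Mat r ℂ)) = Fintype.card (Fin k ⊕ Fin k) * (r * r) := by
    rw [(famE k r).finrank_eq, Module.finrank_pi_fintype, Finset.sum_const, Finset.card_univ,
      smul_eq_mul, Module.finrank_matrix, Fintype.card_fin, Module.finrank_self, mul_one]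
  rw [h4] at h2
  omega

/-- The pair and the other handles cannot both keep a non-scalar commutant. -/
theorem exists_block_schur (hr : r ≠ 0) {x : Tup (g + 2) (Mat r ℂ)} (hx : PRep x) (hs : Schur x)
    {U : Set (Tup (g + 2) (Mat r ℂ))} (hU : U ∈ 𝓝 x) :
    ∃ y ∈ U, PRep y ∧ (SchurF (fam (pairT y)) ∨ SchurF (fam (tailT y))) := by
  classical
  by_contra hcon
  push Not at hcon
  have hS1 : ∀ᶠ y in 𝓝 x, Schur y := by
    refine (eventually_dA_le (ContinuousLinearMap.id ℂ _) x).mono fun y hy => ?_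
    exact (schurF_iff_finrank hr _).2 (hy.trans ((schurF_iff_finrank hr _).1 hs))
  obtain ⟨U1, hU1, hU1o, hxU1⟩ := eventually_nhds_iff.1 (hS1.and hU)
  have hP : ∃ d, ∃ y ∈ U1, PRep y ∧ dA (pairT y) = d := ⟨_, x, hxU1, hx, rfl⟩
  obtain ⟨y1, hy1U, hy1, hd1⟩ := Nat.find_spec hP
  obtain ⟨U2, hU2, hU2o, hy2U⟩ := eventually_nhds_iff.1
    ((eventually_dA_le (pairL (g + 1) r) y1).and (hU1o.mem_nhds hy1U))
  have hH : ∃ d, ∃ y ∈ U2, PRep y ∧ dA (tailT y) = d := ⟨_, y1, hy2U, hy1, rfl⟩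
  obtain ⟨y2, hy2m, hy2, hd2⟩ := Nat.find_spec hH
  obtain ⟨U3, hU3, hU3o, hy3U⟩ := eventually_nhds_iff.1
    ((eventually_dA_le (tailL (g + 1) r) y2).and (hU2o.mem_nhds hy2m))
  set dP := Nat.find hP
  set dH := Nat.find hH
  set Z : Set (Tup (g + 2) (Mat r ℂ)) := {y | y ∈ U3 ∧ PRep y} with hZdef
  have hmem : ∀ y ∈ Z, y ∈ U2 ∧ y ∈ U1 ∧ y ∈ U ∧ Schur y := fun y hy => by
    have h2 := (hU3 y hy.1).2
    have h1 := (hU2 y h2).2
    exact ⟨h2, h1, (hU1 y h1).2, (hU1 y h1).1⟩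
  have hZp : ∀ y ∈ Z, dA (pairT y) = dP := fun y hy => by
    obtain ⟨h2, h1, -, -⟩ := hmem y hy
    have hle := (hU2 y h2).1
    rw [pairL_apply, pairL_apply, hd1] at hle
    exact le_antisymm hle (Nat.find_min' hP ⟨y, h1, hy.2, rfl⟩)
  have hZh : ∀ y ∈ Z, dA (tailT y) = dH := fun y hy => by
    obtain ⟨h2, -, -, -⟩ := hmem y hy
    have hle := (hU3 y hy.1).1
    rw [tailL_apply, tailL_apply, hd2] at hle
    exact le_antisymm hle (Nat.find_min' hH ⟨y, h2, hy.2, rfl⟩)
  have hne : Z.Nonempty := ⟨y2, hy3U, hy2⟩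
  obtain ⟨y0, hy0⟩ := hne
  obtain ⟨hpn, htn⟩ := hcon y0 (hmem y0 hy0).2.2.1 hy0.2
  have hdP : 2 ≤ dP := by
    rw [← hZp y0 hy0]
    have := mt (schurF_iff_finrank hr _).2 hpn
    simp only [dA] at *
    omega
  have hdH : 2 ≤ dH := by
    rw [← hZh y0 hy0]
    have := mt (schurF_iff_finrank hr _).2 htn
    simp only [dA] at *
    omega
  have hcurve : ∀ y ∈ Z, ∀ v, lin y v = 0 → ∃ γ : ℂ → Tup (g + 2) (Mat r ℂ),
      γ 0 = y ∧ (∀ᶠ s in 𝓝 0, γ s ∈ Z) ∧ HasDerivAt γ v 0 := fun y hy v hv => by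
    obtain ⟨γ, h0, hP', hd⟩ := exists_curve hr hy.2 (hmem y hy).2.2.2 hv
    refine ⟨γ, h0, ?_, hd⟩
    have ht : ∀ᶠ s in 𝓝 0, γ s ∈ U3 :=
      hd.continuousAt.eventually_mem (by rw [h0]; exact hU3o.mem_nhds hy.1)
    exact ht.and hP'
  have h1 : dH + 1 ≤ dP := by
    refine dA_le_of_block hr (Nat.le_add_left 1 g) (tailL (g + 1) r) ⟨y0, hy0⟩ hdH hZh fun y hy => ?_
    have hg := hy.2.1
    set C := prodC (pairT y)
    have hC : IsUnit C.det := isUnit_det_prodC hg.pairT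
    refine ⟨((LinearMap.mulRight ℂ C⁻¹).comp (LinearMap.mulLeft ℂ C)).comp (lin (tailT y)),
      LinearMap.range (lin (pairT y)), ?_, range_lin_le hg.pairT, ?_, fun w hw => ?_⟩
    · rintro _ ⟨w, rfl⟩
      change (C * lin (tailT y) w * C⁻¹).trace = 0
      rw [trace_mul_cycle, Matrix.nonsing_inv_mul _ hC, one_mul, trace_lin hg.tailT]
    · rw [← hZp y hy]
      exact le_finrank_range_lin hg.pairT
    · obtain ⟨p, hp⟩ := hw
      change lin (pairT y) p = C * lin (tailT y) w * C⁻¹ at hp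
      obtain ⟨γ, hγ0, hγZ, hγ⟩ := hcurve y hy (joinT (-p) w) (by
        rw [lin_split hg, pairT_joinT, tailT_joinT, map_neg, hp, neg_add_cancel])
      exact ⟨γ, _, hγ0, hγZ, hγ, tailT_joinT _ _⟩
  have h2 : dP + 1 ≤ dH := by
    refine dA_le_of_block hr le_rfl (pairL (g + 1) r) ⟨y0, hy0⟩ hdP hZp fun y hy => ?_
    have hg := hy.2.1
    set C := prodC (pairT y)
    have hC : IsUnit C.det := isUnit_det_prodC hg.pairT
    refine ⟨((LinearMap.mulRight ℂ C).comp (LinearMap.mulLeft ℂ C⁻¹)).comp (lin (pairT y)),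
      LinearMap.range (lin (tailT y)), ?_, range_lin_le hg.tailT, ?_, fun w hw => ?_⟩
    · rintro _ ⟨w, rfl⟩
      change (C⁻¹ * lin (pairT y) w * C).trace = 0
      rw [trace_mul_cycle, Matrix.mul_nonsing_inv _ hC, one_mul, trace_lin hg.pairT]
    · rw [← hZh y hy]
      exact le_finrank_range_lin hg.tailT
    · obtain ⟨p, hp⟩ := hw
      change lin (tailT y) p = C⁻¹ * lin (pairT y) w * C at hp
      obtain ⟨γ, hγ0, hγZ, hγ⟩ := hcurve y hy (joinT w (-p)) (by
        rw [lin_split hg, pairT_joinT, tailT_joinT, map_neg, hp, mul_neg, neg_mul,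
          ← mul_assoc, ← mul_assoc, Matrix.mul_nonsing_inv _ hC, one_mul,
          Matrix.mul_nonsing_inv_cancel_right _ _ hC, add_neg_cancel])
      exact ⟨γ, _, hγ0, hγZ, hγ, pairT_joinT _ _⟩
  omega

theorem schurF_pairT_of_ostar {x : Tup (g + 1) (Mat r ℂ)} (h : OStar (x.1 0) (x.2 0)) :
    SchurF (fam (pairT x)) := fun Y hY => h.schurF Y fun j => by
  fin_cases j
  · exact hY (Sum.inl 0)
  · exact hY (Sum.inr 0)

/-- A nearby tuple whose first handle is in normal form. -/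
theorem exists_ostar_tup {x : Tup (g + 1) (Mat r ℂ)} (hx : Good x)
    {W : Set (Tup (g + 1) (Mat r ℂ))} (hW : W ∈ 𝓝 x) : ∃ w ∈ W, OStar (w.1 0) (w.2 0) := by
  obtain ⟨V, hVW, hVo, hxV⟩ := mem_nhds_iff.1 hW
  let φ : Mat r ℂ × Mat r ℂ → Tup (g + 1) (Mat r ℂ) := fun p =>
    (Function.update x.1 0 p.1, Function.update x.2 0 p.2)
  have hφ : Continuous φ :=
    ((continuous_const (y := x.1)).update 0 continuous_fst).prodMk
      ((continuous_const (y := x.2)).update 0 continuous_snd)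
  have h0 : φ (x.1 0, x.2 0) = x := by simp [φ]
  obtain ⟨a, b, hab, -, -, hO⟩ := exists_ostar_near (hx.1 0) (hx.2 0) (hVo.preimage hφ)
    (show φ (x.1 0, x.2 0) ∈ V by rw [h0]; exact hxV)
  exact ⟨φ (a, b), hVW hab, by simpa [φ] using hO⟩

/-- The root used to normalise the determinant. -/
noncomputable def scal (a : Mat r ℂ) : Mat r ℂ := Complex.exp (-Complex.log a.det / r) • a

theorem det_scal (hr : r ≠ 0) {a : Mat r ℂ} (ha : a.det ≠ 0) : (scal a).det = 1 := by
  rw [scal, det_smul, Fintype.card_fin, ← Complex.exp_nat_mul,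
    mul_div_cancel₀ _ (show (r : ℂ) ≠ 0 by exact_mod_cast hr), Complex.exp_neg,
    Complex.exp_log ha, inv_mul_cancel₀ ha]

theorem scal_of_det {a : Mat r ℂ} (ha : a.det = 1) : scal a = a := by simp [scal, ha]

theorem continuousAt_scal {a : Mat r ℂ} (ha : a.det = 1) : ContinuousAt scal a := by
  have h1 : ContinuousAt (fun b : Mat r ℂ => Complex.log b.det) a :=
    ContinuousAt.comp (g := Complex.log) (continuousAt_clog (by rw [ha]; simp))
      continuous_id.matrix_det.continuousAt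
  exact (Complex.continuous_exp.continuousAt.comp (h1.neg.div_const _)).smul continuousAt_id

theorem inv_smul_mat {c : ℂ} (hc : c ≠ 0) {a : Mat r ℂ} (ha : a.det ≠ 0) :
    (c • a)⁻¹ = c⁻¹ • a⁻¹ := by
  refine Matrix.inv_eq_right_inv ?_
  rw [Matrix.smul_mul, Matrix.mul_smul, smul_smul, Matrix.mul_nonsing_inv _
    (isUnit_iff_ne_zero.2 ha), mul_inv_cancel₀ hc, one_smul]

/-- Scale every matrix to determinant one. -/
noncomputable def normT (x : Tup n (Mat r ℂ)) : Tup n (Mat r ℂ) :=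
  (fun i => scal (x.1 i), fun i => scal (x.2 i))

theorem prodC_normT : ∀ {n : ℕ} {x : Tup n (Mat r ℂ)}, Good x → prodC (normT x) = prodC x
  | 0, x, _ => by simp [prodC, rel]
  | n + 1, x, hx => by
    rw [prodC_succ, prodC_succ x,
      show tailT (normT x) = normT (tailT x) from rfl, prodC_normT hx.tailT]
    congr 1
    simp only [normT, scal]
    rw [inv_smul_mat (Complex.exp_ne_zero _) (hx.1 0), inv_smul_mat (Complex.exp_ne_zero _) (hx.2 0)]
    simp only [Matrix.smul_mul, Matrix.mul_smul, smul_smul]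
    convert one_smul ℂ _ using 2
    field_simp

theorem isRep_normT (hr : r ≠ 0) {x : Tup n (Mat r ℂ)} (hx : PRep x) : IsRep (normT x) := by
  have hd : DetOne (normT x) := ⟨fun i => det_scal hr (hx.1.1 i), fun i => det_scal hr (hx.1.2 i)⟩
  exact isRep_of_pRep ⟨good_of_detOne hd, (prodC_normT hx.1).trans hx.2⟩ hd

/-- Near every Schur representation there is one with first handle in normal form. -/
theorem exists_rep_ostar (hr : r ≠ 0) {x : Tup (g + 2) (Mat r ℂ)} (hx : IsRep x) (hs : Schur x)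
    {U : Set (Tup (g + 2) (Mat r ℂ))} (hU : U ∈ 𝓝 x) :
    ∃ y ∈ U, IsRep y ∧ OStar (y.1 0) (y.2 0) := by
  have hc : ContinuousAt (normT : Tup (g + 2) (Mat r ℂ) → _) x :=
    (continuousAt_pi.2 fun i => ContinuousAt.comp (g := scal) (continuousAt_scal (hx.1.1 i))
      ((continuous_apply i).comp continuous_fst).continuousAt).prodMk
    (continuousAt_pi.2 fun i => ContinuousAt.comp (g := scal) (continuousAt_scal (hx.1.2 i))
      ((continuous_apply i).comp continuous_snd).continuousAt)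
  have hx0 : normT x = x :=
    Prod.ext (funext fun i => scal_of_det (hx.1.1 i)) (funext fun i => scal_of_det (hx.1.2 i))
  obtain ⟨V, hVU, hVo, hxV⟩ := mem_nhds_iff.1 (hc.preimage_mem_nhds (by rw [hx0]; exact hU))
  suffices h : ∃ y ∈ V, PRep y ∧ OStar (y.1 0) (y.2 0) by
    obtain ⟨y, hy, hyP, hyO⟩ := h
    refine ⟨normT y, hVU hy, isRep_normT hr hyP, ?_⟩
    exact hyO.smul (Complex.exp_ne_zero _) (Complex.exp_ne_zero _)
  obtain ⟨y, hy, hyP, hor⟩ := exists_block_schur hr (pRep_of_isRep hx) hs (hVo.mem_nhds hxV)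
  -- reach a point where the other handles have scalar commutant
  obtain ⟨y', hy', hyP', htail⟩ : ∃ y' ∈ V, PRep y' ∧ SchurF (fam (tailT y')) := by
    rcases hor with hp | ht
    · obtain ⟨w, ⟨y', h1, h2, h3⟩, hwO⟩ :=
        exists_ostar_tup hyP.1.tailT (eventually_tail hr hyP hp (hVo.mem_nhds hy))
      refine ⟨y', h1, h2, ?_⟩
      rw [h3]
      exact schurF_pair_or_tail (Or.inl (schurF_pairT_of_ostar hwO))
    · exact ⟨y, hy, hyP, ht⟩
  obtain ⟨w, ⟨y'', h1, h2, h3⟩, hwO⟩ :=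
    exists_ostar_tup hyP'.1.pairT (eventually_pair hr hyP' htail (hVo.mem_nhds hy'))
  refine ⟨y'', h1, h2, ?_⟩
  rw [← h3] at hwO
  exact hwO

end Vale.Agent.P002
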