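import Vale.Agent.P002.Full.RatMat

/-!
A rational conjugation of a unimodular matrix to a product of a lower and an upper unitriangular
matrix: one elementary column step for each pivot.
-/

namespace Vale.Agent.P002

open Matrix

/-- The data of the factorisation. -/
structure Fac (n : ℕ) where
  /-- The conjugating matrix. -/
  W : Mat (n + 1) ℂ
  /-- Its inverse. -/
  Wi : Mat (n + 1) ℂ
  /-- The lower factor. -/
  L : Mat (n + 1) ℂ
  /-- The upper factor. -/
  U : Mat (n + 1) ℂ

variable {n : ℕ}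

/-- The coefficient of the column step. -/
noncomputable def stp (M : Mat (n + 2) ℂ) : ℂ := (1 - M 0 0) / M 0 1

/-- The matrix after the column step. -/
noncomputable def stepM (M : Mat (n + 2) ℂ) : Mat (n + 2) ℂ :=
  transvection 1 0 (-stp M) * M * transvection 1 0 (stp M)

/-- The Schur complement of the pivot. -/
noncomputable def compl (M : Mat (n + 2) ℂ) : Mat (n + 1) ℂ :=
  (stepM M).submatrix Fin.succ Fin.succ -
    vecMulVec (fun i => stepM M i.succ 0) (fun j => stepM M 0 j.succ)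

/-- The factorisation. -/
noncomputable def fac : (n : ℕ) → Mat (n + 1) ℂ → Fac n
  | 0, _ => ⟨1, 1, 1, 1⟩
  | n + 1, M =>
    let F := fac n (compl M)
    ⟨transvection 1 0 (stp M) * blk 1 0 0 F.W, blk 1 0 0 F.Wi * transvection 1 0 (-stp M),
      blk 1 0 (F.Wi *ᵥ fun i => stepM M i.succ 0) F.L,
      blk 1 ((fun j => stepM M 0 j.succ) ᵥ* F.W) 0 F.U⟩

/-- The denominators do not vanish. -/
def NZ : (n : ℕ) → Mat (n + 1) ℂ → Prop
  | 0, _ => True
  | n + 1, M => M 0 1 ≠ 0 ∧ NZ n (compl M)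

theorem stepM_zero_zero {M : Mat (n + 2) ℂ} (h : M 0 1 ≠ 0) : stepM M 0 0 = 1 := by
  have h10 : (1 : Fin (n + 2)) ≠ 0 := one_ne_zero
  rw [stepM, mul_assoc, transvection_mul_apply_of_ne _ _ _ _ (Ne.symm h10),
    mul_transvection_apply_same, stp]
  field_simp
  ring

theorem fac_spec : ∀ (n : ℕ) (M : Mat (n + 1) ℂ), NZ n M → M.det = 1 →
    (fac n M).W * (fac n M).Wi = 1 ∧ LoU (fac n M).L ∧ UpU (fac n M).U ∧
      (fac n M).Wi * M * (fac n M).W = (fac n M).L * (fac n M).U
  | 0, M, _, hd => by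
    have hM : M = 1 := by
      ext i j
      fin_cases i; fin_cases j
      rw [det_fin_one] at hd
      simpa using hd
    exact ⟨by simp [fac], ⟨blockTriangular_one, fun i => one_apply_eq i⟩,
      ⟨blockTriangular_one, fun i => one_apply_eq i⟩, by simp [fac, hM]⟩
  | n + 1, M, h, hd => by
    obtain ⟨h01, hrec⟩ := h
    have h10 : (1 : Fin (n + 2)) ≠ 0 := one_ne_zero
    have hinv : transvection (1 : Fin (n + 2)) 0 (stp M) * transvection 1 0 (-stp M) = 1 := by
      rw [transvection_mul_transvection_same _ _ h10, add_neg_cancel, transvection_zero]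
    set u : Fin (n + 1) → ℂ := fun j => stepM M 0 j.succ with hu
    set c : Fin (n + 1) → ℂ := fun i => stepM M i.succ 0 with hc
    have hstep : stepM M = blk 1 u c (vecMulVec c u + compl M) := by
      conv_lhs => rw [eq_blk (stepM M), stepM_zero_zero h01]
      simp [compl, hu, hc]
    have hdet : (compl M).det = 1 := by
      have h1 : (stepM M).det = 1 := by
        simp [stepM, det_transvection_of_ne _ _ h10, hd]
      have h2 : stepM M = blk 1 0 c 1 * blk 1 u 0 (compl M) := by
        rw [hstep, blk_mul_blk]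
        simp
      have h3 : LoU (blk 1 0 c (1 : Mat (n + 1) ℂ)) :=
        ⟨blk_lower blockTriangular_one, fun i => by refine Fin.cases ?_ (fun i => ?_) i <;> simp⟩
      rwa [h2, det_mul, h3.det, one_mul, det_blk_upper, one_mul] at h1
    obtain ⟨hW, hL, hU, hWM⟩ := fac_spec n (compl M) hrec hdet
    set F := fac n (compl M) with hF
    have e : fac (n + 1) M = ⟨transvection 1 0 (stp M) * blk 1 0 0 F.W,
        blk 1 0 0 F.Wi * transvection 1 0 (-stp M), blk 1 0 (F.Wi *ᵥ c) F.L,
        blk 1 (u ᵥ* F.W) 0 F.U⟩ := rfl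
    rw [e]
    refine ⟨?_, ⟨blk_lower hL.1, fun i => ?_⟩, ⟨blk_upper hU.1, fun i => ?_⟩, ?_⟩
    · calc transvection 1 0 (stp M) * blk 1 0 0 F.W * (blk 1 0 0 F.Wi * transvection 1 0 (-stp M))
          = transvection 1 0 (stp M) * (blk 1 0 0 F.W * blk 1 0 0 F.Wi) *
              transvection 1 0 (-stp M) := by simp only [mul_assoc]
        _ = 1 := by rw [blk_mul_blk]; simp [hW, blk_one, hinv]
    · refine Fin.cases ?_ (fun i => ?_) i <;> simp [hL.2]
    · refine Fin.cases ?_ (fun i => ?_) i <;> simp [hU.2]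
    · calc blk 1 0 0 F.Wi * transvection 1 0 (-stp M) * M *
            (transvection 1 0 (stp M) * blk 1 0 0 F.W)
          = blk 1 0 0 F.Wi * stepM M * blk 1 0 0 F.W := by simp only [stepM, mul_assoc]
        _ = blk 1 0 (F.Wi *ᵥ c) F.L * blk 1 (u ᵥ* F.W) 0 F.U := by
          rw [hstep, blk_mul_blk, blk_mul_blk, blk_mul_blk]
          congr 1
          · simp
          · simp
          · simp
          · simp [mul_add, add_mul, mul_vecMulVec, vecMulVec_mul, hWM]

theorem fac_fixed : ∀ (n : ℕ) (L U : Mat (n + 1) ℂ), LoU L → UpU U →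
    (∀ i j : Fin (n + 1), (j : ℕ) = i + 1 → U i j ≠ 0) →
      NZ n (L * U) ∧ fac n (L * U) = ⟨1, 1, L, U⟩
  | 0, L, U, hL, hU, _ => by
    have h1 : L = 1 := by ext i j; fin_cases i; fin_cases j; simpa using hL.2 0
    have h2 : U = 1 := by ext i j; fin_cases i; fin_cases j; simpa using hU.2 0
    exact ⟨trivial, by simp [fac, h1, h2]⟩
  | n + 1, L, U, hL, hU, hs => by
    set c : Fin (n + 1) → ℂ := fun i => L i.succ 0 with hc
    set u : Fin (n + 1) → ℂ := fun j => U 0 j.succ with hu
    set L' := L.submatrix Fin.succ Fin.succ with hL'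
    set U' := U.submatrix Fin.succ Fin.succ with hU'
    have eL : L = blk 1 0 c L' := by
      conv_lhs => rw [eq_blk L, hL.2 0]
      congr 1
      funext j
      exact hL.1 (OrderDual.toDual_lt_toDual.2 (Fin.succ_pos j))
    have eU : U = blk 1 u 0 U' := by
      conv_lhs => rw [eq_blk U, hU.2 0]
      congr 1
      funext i
      exact hU.1 (Fin.succ_pos i)
    have hM : L * U = blk 1 u c (vecMulVec c u + L' * U') := by
      rw [eL, eU, blk_mul_blk]
      simp
    have hstp : stp (L * U) = 0 := by simp [stp, hM]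
    have hstep : stepM (L * U) = L * U := by simp [stepM, hstp]
    have hcompl : compl (L * U) = L' * U' := by
      ext i j
      simp only [compl, hstep]
      simp [hM, vecMulVec]
    have hL'p : LoU L' := ⟨fun i j h => hL.1 (OrderDual.toDual_lt_toDual.2
      (Fin.succ_lt_succ_iff.2 (OrderDual.toDual_lt_toDual.1 h))), fun i => hL.2 _⟩
    have hU'p : UpU U' := ⟨fun i j h => hU.1 (Fin.succ_lt_succ_iff.2 h), fun i => hU.2 _⟩
    obtain ⟨hnz, hfac⟩ := fac_fixed n L' U' hL'p hU'p
      fun i j hij => hs i.succ j.succ (by simp [hij])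
    refine ⟨⟨?_, by rwa [hcompl]⟩, ?_⟩
    · have h1 : (1 : Fin (n + 2)) = Fin.succ 0 := rfl
      rw [hM, h1, blk_zero_succ]
      exact hs 0 (Fin.succ 0) (by simp)
    · rw [fac, hcompl, hfac, hstp, hstep]
      simp [blk_one, hM, ← eL, ← eU]

section Rational

variable {V : Type*} [AddCommGroup V] [Module ℂ V] [TopologicalSpace V]

theorem RatMat.transvection {Ω : Set V} {i j : Fin n} {c : V → ℂ} (hc : RatOn Ω c) :
    RatMat Ω fun p => Matrix.transvection i j (c p) := by
  intro k l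
  simp only [Matrix.transvection, Matrix.add_apply, Matrix.single_apply]
  refine (RatOn.const _).add ?_
  split_ifs
  · exact hc
  · exact RatOn.const _

theorem fac_rat : ∀ (n : ℕ) (Ω : Set V) (F : V → Mat (n + 1) ℂ), RatSet Ω → RatMat Ω F →
    RatSet (Ω ∩ {p | NZ n (F p)}) ∧
      RatMat (Ω ∩ {p | NZ n (F p)}) (fun p => (fac n (F p)).W) ∧
      RatMat (Ω ∩ {p | NZ n (F p)}) (fun p => (fac n (F p)).Wi) ∧
      RatMat (Ω ∩ {p | NZ n (F p)}) (fun p => (fac n (F p)).L) ∧
      RatMat (Ω ∩ {p | NZ n (F p)}) (fun p => (fac n (F p)).U)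
  | 0, Ω, F, hΩ, _ => by
    simp only [NZ, fac, Set.ofPred_true, Set.inter_univ]
    exact ⟨hΩ, RatMat.const 1, RatMat.const 1, RatMat.const 1, RatMat.const 1⟩
  | n + 1, Ω, F, hΩ, hF => by
    set Ω₁ := Ω ∩ {p | F p 0 1 ≠ 0} with hΩ₁
    have h₁ : RatSet Ω₁ := hΩ.inter_ne_zero (hF 0 1)
    have hF₁ : RatMat Ω₁ F := hF.mono Set.inter_subset_left
    have hs : RatOn Ω₁ fun p => stp (F p) :=
      ((RatOn.const 1).sub (hF₁ 0 0)).div (hF₁ 0 1) fun p hp => hp.2
    have hstep : RatMat Ω₁ fun p => stepM (F p) :=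
      ((RatMat.transvection hs.neg).mul hF₁).mul (RatMat.transvection hs)
    have hcompl : RatMat Ω₁ fun p => compl (F p) := fun i j =>
      ((hstep i.succ j.succ).sub ((hstep i.succ 0).mul (hstep 0 j.succ))).congr
        fun p _ => by simp [compl, vecMulVec]
    obtain ⟨hS, hW, hWi, hL, hU⟩ := fac_rat n Ω₁ (fun p => compl (F p)) h₁ hcompl
    set Ω₂ := Ω₁ ∩ {p | NZ n (compl (F p))} with hΩ₂
    have heq : Ω ∩ {p | NZ (n + 1) (F p)} = Ω₂ := by
      ext p
      simp [hΩ₁, hΩ₂, NZ, and_assoc]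
    rw [heq]
    have hs₂ := hs.mono (Set.inter_subset_left : Ω₂ ⊆ Ω₁)
    have hst₂ := hstep.mono (Set.inter_subset_left : Ω₂ ⊆ Ω₁)
    have hz : ∀ i : Fin (n + 1), RatOn Ω₂ fun _ : V => (0 : Fin (n + 1) → ℂ) i :=
      fun _ => RatOn.const _
    refine ⟨hS, (RatMat.transvection hs₂).mul (RatMat.blk (RatOn.const 1) hz hz hW),
      (RatMat.blk (RatOn.const 1) hz hz hWi).mul (RatMat.transvection hs₂.neg),
      RatMat.blk (RatOn.const 1) hz (fun i => ?_) hL,
      RatMat.blk (RatOn.const 1) (fun i => ?_) hz hU⟩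
    · exact (RatOn.sum Finset.univ _ fun j _ => (hWi i j).mul (hst₂ j.succ 0)).congr
        fun p _ => rfl
    · exact (RatOn.sum Finset.univ _ fun j _ => (hst₂ 0 j.succ).mul (hW j i)).congr
        fun p _ => rfl

end Rational

end Vale.Agent.P002
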