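import Vale.Agent.P002.Full.Basic

/-!
Kernels of continuous families of linear maps.
-/

namespace Vale.Agent.P002

open Filter Topology Module

variable {V W : Type*} [NormedAddCommGroup V] [NormedSpace ℂ V] [FiniteDimensional ℂ V]
  [NormedAddCommGroup W] [NormedSpace ℂ W] [FiniteDimensional ℂ W]

/-- A complement of the kernel and a left inverse on it. -/
theorem exists_split (A : V →L[ℂ] W) :
    ∃ (C : Submodule ℂ V) (L : W →L[ℂ] C), IsCompl A.ker C ∧ ∀ c : C, L (A c) = c := by
  obtain ⟨C, hC⟩ := Submodule.exists_isCompl A.ker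
  have hinj : (A.toLinearMap.comp C.subtype).ker = ⊥ := by
    rw [Submodule.eq_bot_iff]
    intro c hc
    have : (c : V) ∈ A.ker ⊓ C := ⟨hc, c.2⟩
    rw [hC.inf_eq_bot, Submodule.mem_bot] at this
    exact Subtype.ext this
  obtain ⟨L, hL⟩ := LinearMap.exists_leftInverse_of_injective _ hinj
  exact ⟨C, L.toContinuousLinearMap, hC, fun c => LinearMap.congr_fun hL c⟩

variable {X : Type*} [TopologicalSpace X] {Φ : X → V →L[ℂ] W} {x0 : X}

/-- The dimension of the kernel is upper semicontinuous. -/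
theorem eventually_finrank_ker_le (h : ContinuousAt Φ x0) :
    ∀ᶠ x in 𝓝 x0, finrank ℂ (Φ x).ker ≤ finrank ℂ (Φ x0).ker := by
  obtain ⟨C, L, hC, hL⟩ := exists_split (Φ x0)
  have : FiniteDimensional ℂ C := inferInstance
  let M : X → C →L[ℂ] C := fun x => L.comp ((Φ x).comp C.subtypeL)
  have hM : ContinuousAt M x0 :=
    continuousAt_const.clm_comp (h.clm_comp continuousAt_const)
  have h0 : M x0 = 1 := ContinuousLinearMap.ext fun c => hL c
  have hu : ∀ᶠ x in 𝓝 x0, IsUnit (M x) :=
    hM.eventually ((Units.isOpen.eventually_mem (x := M x0) (by simp [h0])).mono fun _ h => by simpa using h)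
  filter_upwards [hu] with x hx
  have hdis : (Φ x).ker ⊓ C = ⊥ := by
    rw [Submodule.eq_bot_iff]
    rintro v ⟨hv, hvC⟩
    obtain ⟨u, hu⟩ := hx
    have h1 : (u : C →L[ℂ] C) ⟨v, hvC⟩ = 0 := by
      rw [hu]
      change L (Φ x v) = 0
      rw [show Φ x v = 0 from hv, map_zero]
    have h2 := congrArg (fun w => ((u⁻¹ : (C →L[ℂ] C)ˣ) : C →L[ℂ] C) w) h1
    simp only [← mul_apply_eq_comp, Units.inv_mul, map_zero] at h2
    exact congrArg Subtype.val h2
  have h1 := Submodule.finrank_add_finrank_le_of_disjoint (disjoint_iff.2 hdis)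
  have h2 := Submodule.finrank_add_eq_of_isCompl hC
  omega

/-- Through every vector of the kernel passes a curve of kernel vectors, if the dimension of the
kernel does not drop. -/
theorem exists_ker_curve {Φ : ℂ → V →L[ℂ] W} (h : ContinuousAt Φ 0)
    (hge : ∀ᶠ s in 𝓝 0, finrank ℂ (Φ 0).ker ≤ finrank ℂ (Φ s).ker) {u : V} (hu : Φ 0 u = 0) :
    ∃ w : ℂ → V, w 0 = u ∧ (∀ᶠ s in 𝓝 0, Φ s (w s) = 0) ∧ ContinuousAt w 0 ∧
      (DifferentiableAt ℂ Φ 0 → DifferentiableAt ℂ w 0) := by
  obtain ⟨C, L, hC, hL⟩ := exists_split (Φ 0)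
  let M : ℂ → C →L[ℂ] C := fun x => L.comp ((Φ x).comp C.subtypeL)
  have hM : ContinuousAt M 0 :=
    continuousAt_const.clm_comp (h.clm_comp continuousAt_const)
  have h0 : M 0 = 1 := ContinuousLinearMap.ext fun c => hL c
  have h0u : IsUnit (M 0) := by rw [h0]; exact isUnit_one
  have hinv : ∀ᶠ s in 𝓝 0, IsUnit (M s) := hM.eventually ((Units.isOpen.eventually_mem (x := M 0) (by simp [h0])).mono fun _ h => by simpa using h)
  refine ⟨fun s => u - C.subtypeL (Ring.inverse (M s) (L (Φ s u))), by simp [hu], ?_, ?_, fun hd => ?_⟩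
  · filter_upwards [hinv, hge] with s hs hd
    obtain ⟨U, hU⟩ := hs
    have hcancel : ∀ c : C, Ring.inverse (M s) (M s c) = c := fun c => by
      rw [← mul_apply_eq_comp, ← hU, Ring.inverse_unit, Units.inv_mul,
        one_apply_eq_self]
    have hdis : Disjoint (Φ s).ker C := by
      rw [Submodule.disjoint_def]
      intro v hv hvC
      have h1 : M s ⟨v, hvC⟩ = 0 := by
        change L (Φ s v) = 0
        rw [show Φ s v = 0 from hv, map_zero]
      exact congrArg Subtype.val (show (⟨v, hvC⟩ : C) = 0 by rw [← hcancel ⟨v, hvC⟩, h1, map_zero])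
    have htop : (Φ s).ker ⊔ C = ⊤ := by
      apply Submodule.eq_top_of_finrank_eq
      have h1 := Submodule.finrank_sup_add_finrank_inf_eq (Φ s).ker C
      rw [hdis.eq_bot, finrank_bot] at h1
      have h2 := Submodule.finrank_add_eq_of_isCompl hC
      have h3 := Submodule.finrank_le ((Φ s).ker ⊔ C)
      omega
    obtain ⟨a, ha, c, hc, hac⟩ := Submodule.mem_sup.1 (htop ▸ Submodule.mem_top (x := u))
    have e : L (Φ s u) = M s ⟨c, hc⟩ := by
      rw [← hac, map_add, show Φ s a = 0 from ha, zero_add]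
      rfl
    rw [e, hcancel, ← hac]
    simpa using ha
  · refine continuousAt_const.sub (C.subtypeL.continuous.continuousAt.comp ?_)
    refine ContinuousAt.clm_apply ?_ (L.continuous.continuousAt.comp (h.clm_apply continuousAt_const))
    exact ((differentiableAt_inverse (𝕜 := ℂ) h0u).continuousAt).comp hM
  · have hMd : DifferentiableAt ℂ M 0 :=
      (differentiableAt_const L).clm_comp (hd.clm_comp (differentiableAt_const C.subtypeL))
    have hI : DifferentiableAt ℂ (fun s => Ring.inverse (M s)) 0 := by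
      exact DifferentiableAt.inverse (𝕜 := ℂ) (E := ℂ) (h := M) hMd h0u
    exact (differentiableAt_const u).sub (C.subtypeL.differentiableAt.comp 0
      (hI.clm_apply
        (L.differentiableAt.comp 0 (hd.clm_apply (differentiableAt_const u)))))

/-- The derivative of a linearly parametrised family of maps along a curve. -/
theorem hasDerivAt_family {E P : Type*} [NormedAddCommGroup E] [NormedSpace ℂ E]
    [NormedAddCommGroup P] [NormedSpace ℂ P] (A : P →L[ℂ] V →L[ℂ] W) (π : E →L[ℂ] P)
    {γ : ℂ → E} {v : E} (hγ : HasDerivAt γ v 0) :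
    HasDerivAt (fun s => A (π (γ s))) (A (π v)) 0 :=
  A.hasFDerivAt.comp_hasDerivAt 0 (π.hasFDerivAt.comp_hasDerivAt 0 hγ)

end Vale.Agent.P002
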