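import Vale.Agent.P002.Full.Centralizer

/-!
The differential of the product of commutators; the annihilator of its range is the commutant.
-/

namespace Vale.Agent.P002

open Matrix Module Filter Topology
open scoped Matrix.Norms.Operator

variable {n g r : ℕ}

theorem Good.tailT {x : Tup (g + 1) (Mat r ℂ)} (hx : Good x) : Good (tailT x) :=
  ⟨fun i => hx.1 i.succ, fun i => hx.2 i.succ⟩

theorem Good.pairT {x : Tup (g + 1) (Mat r ℂ)} (hx : Good x) : Good (pairT x) :=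
  ⟨fun _ => hx.1 0, fun _ => hx.2 0⟩

theorem det_prodC : ∀ {n : ℕ} {x : Tup n (Mat r ℂ)}, Good x → (prodC x).det = 1
  | 0, x, _ => by simp [prodC, rel]
  | n + 1, x, hx => by
    rw [prodC_succ, det_mul, det_prodC hx.tailT, mul_one, det_mul, det_mul, det_mul,
      det_nonsing_inv, det_nonsing_inv, Ring.inverse_eq_inv, Ring.inverse_eq_inv]
    field_simp [hx.1 0, hx.2 0]

theorem isUnit_det_prodC {x : Tup n (Mat r ℂ)} (hx : Good x) : IsUnit (prodC x).det := by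
  rw [det_prodC hx]; exact isUnit_one

theorem contDiffAt_inv {a : Mat r ℂ} (ha : a.det ≠ 0) :
    ContDiffAt ℂ 1 (fun a : Mat r ℂ => a⁻¹) a := by
  obtain ⟨u, hu⟩ := (Matrix.isUnit_iff_isUnit_det a).2 (isUnit_iff_ne_zero.2 ha)
  have e : (fun a : Mat r ℂ => a⁻¹) = Ring.inverse := funext nonsing_inv_eq_ringInverse
  rw [e, ← hu]
  exact contDiffAt_ringInverse ℂ u

theorem hasDerivAt_inv' {γ : ℂ → Mat r ℂ} {η : Mat r ℂ} (hγ : HasDerivAt γ η 0)
    (h0 : (γ 0).det ≠ 0) :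
    HasDerivAt (fun t => (γ t)⁻¹) (-((γ 0)⁻¹ * η * (γ 0)⁻¹)) 0 := by
  obtain ⟨u, hu⟩ := (Matrix.isUnit_iff_isUnit_det _).2 (isUnit_iff_ne_zero.2 h0)
  have e : (fun t => (γ t)⁻¹) = Ring.inverse ∘ γ := funext fun t => nonsing_inv_eq_ringInverse _
  rw [e, ← hu, ← Matrix.coe_units_inv]
  have h := (hasFDerivAt_ringInverse (𝕜 := ℂ) u)
  rw [hu] at h
  refine (h.comp_hasDerivAt 0 hγ).congr_deriv ?_
  simp

theorem contDiffAt_prodC : ∀ {n : ℕ} {x : Tup n (Mat r ℂ)}, Good x → ContDiffAt ℂ 1 prodC x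
  | 0, x, _ => by
    have e : (prodC : Tup 0 (Mat r ℂ) → _) = fun _ => 1 := funext fun y => by simp [prodC, rel]
    rw [e]; exact contDiffAt_const
  | n + 1, x, hx => by
    have e : (prodC : Tup (n + 1) (Mat r ℂ) → _) = fun y =>
        y.1 0 * y.2 0 * (y.1 0)⁻¹ * (y.2 0)⁻¹ * prodC (tailT y) := funext prodC_succ
    rw [e]
    have ha : ContDiff ℂ 1 (fun y : Tup (n + 1) (Mat r ℂ) => y.1 0) :=
      (contDiff_apply ℂ (Mat r ℂ) 0).comp contDiff_fst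
    have hb : ContDiff ℂ 1 (fun y : Tup (n + 1) (Mat r ℂ) => y.2 0) :=
      (contDiff_apply ℂ (Mat r ℂ) 0).comp contDiff_snd
    have ht : ContDiff ℂ 1 (fun y : Tup (n + 1) (Mat r ℂ) => tailT y) :=
      (contDiff_pi.2 fun i : Fin n => (contDiff_apply ℂ (Mat r ℂ) i.succ).comp contDiff_fst).prodMk
        (contDiff_pi.2 fun i : Fin n => (contDiff_apply ℂ (Mat r ℂ) i.succ).comp contDiff_snd)
    exact (((ha.contDiffAt.mul hb.contDiffAt).mul
      ((contDiffAt_inv (hx.1 0)).comp x ha.contDiffAt)).mul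
      ((contDiffAt_inv (hx.2 0)).comp x hb.contDiffAt)).mul
      ((contDiffAt_prodC hx.tailT).comp x ht.contDiffAt)

/-- The differential of the product of commutators, moved to the identity. -/
noncomputable def lin (x : Tup n (Mat r ℂ)) : Tup n (Mat r ℂ) →ₗ[ℂ] Mat r ℂ :=
  (LinearMap.mulRight ℂ (prodC x)⁻¹).comp (fderiv ℂ prodC x).toLinearMap

theorem lin_apply (x v : Tup n (Mat r ℂ)) :
    lin x v = fderiv ℂ prodC x v * (prodC x)⁻¹ := rfl

theorem hasDerivAt_prodC_line {x : Tup n (Mat r ℂ)} (hx : Good x) (v : Tup n (Mat r ℂ)) :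
    HasDerivAt (fun t : ℂ => prodC (x + t • v)) (fderiv ℂ prodC x v) 0 := by
  have hline : HasDerivAt (fun t : ℂ => x + t • v) v 0 := by
    have h := ((hasDerivAt_id (0 : ℂ)).smul_const v).const_add x
    rwa [one_smul] at h
  have h : HasFDerivAt prodC (fderiv ℂ prodC x) (x + (0 : ℂ) • v) := by
    rw [zero_smul, add_zero]
    exact ((contDiffAt_prodC hx).differentiableAt one_ne_zero).hasFDerivAt
  exact (h.comp_hasDerivAt 0 hline :)

/-- The contribution of one commutator to `lin`. -/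
noncomputable def linC (a b α β : Mat r ℂ) : Mat r ℂ :=
  α * a⁻¹ + a * β * b⁻¹ * a⁻¹ - a * b * a⁻¹ * α * b⁻¹ * a⁻¹ -
    a * b * a⁻¹ * b⁻¹ * β * a * b⁻¹ * a⁻¹

theorem lin_succ {x : Tup (g + 1) (Mat r ℂ)} (hx : Good x) (v : Tup (g + 1) (Mat r ℂ)) :
    lin x v = linC (x.1 0) (x.2 0) (v.1 0) (v.2 0) +
      (x.1 0 * x.2 0 * (x.1 0)⁻¹ * (x.2 0)⁻¹) * lin (tailT x) (tailT v) *
        (x.1 0 * x.2 0 * (x.1 0)⁻¹ * (x.2 0)⁻¹)⁻¹ := by
  have l1 : ∀ (a η : Mat r ℂ), HasDerivAt (fun t : ℂ => a + t • η) η 0 := fun a η => by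
    have h := ((hasDerivAt_id (0 : ℂ)).smul_const η).const_add a
    rwa [one_smul] at h
  have ha := l1 (x.1 0) (v.1 0)
  have hb := l1 (x.2 0) (v.2 0)
  have hai := hasDerivAt_inv' ha (by simpa using hx.1 0)
  have hbi := hasDerivAt_inv' hb (by simpa using hx.2 0)
  have h := (((ha.mul hb).mul hai).mul hbi).mul (hasDerivAt_prodC_line hx.tailT (tailT v))
  have e : (fun t : ℂ => prodC (x + t • v)) = fun t => (x.1 0 + t • v.1 0) * (x.2 0 + t • v.2 0) *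
      (x.1 0 + t • v.1 0)⁻¹ * (x.2 0 + t • v.2 0)⁻¹ * prodC (tailT x + t • tailT v) :=
    funext fun t => prodC_succ _
  have h' := hasDerivAt_prodC_line hx v
  rw [e] at h'
  have hD := h'.unique h
  simp only [zero_smul, add_zero, Pi.mul_apply] at hD
  rw [lin_apply, hD, lin_apply, prodC_succ x, Matrix.mul_inv_rev]
  obtain ⟨A, hA⟩ := (Matrix.isUnit_iff_isUnit_det _).2 (isUnit_iff_ne_zero.2 (hx.1 0))
  obtain ⟨B, hB⟩ := (Matrix.isUnit_iff_isUnit_det _).2 (isUnit_iff_ne_zero.2 (hx.2 0))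
  obtain ⟨P, hP⟩ := (Matrix.isUnit_iff_isUnit_det _).2 (isUnit_det_prodC hx.tailT)
  rw [← hA, ← hB, ← hP, linC]
  simp only [← Matrix.coe_units_inv, ← Units.val_mul, _root_.mul_inv_rev, inv_inv]
  simp only [Units.val_mul, add_mul, mul_add, sub_eq_add_neg, mul_neg, neg_mul, mul_assoc,
    Units.inv_mul, Units.mul_inv_cancel_left, Units.inv_mul_cancel_left, mul_one]

theorem lin_zero_tup (x v : Tup 0 (Mat r ℂ)) : lin x v = 0 := by
  have : v = 0 := Subsingleton.elim _ _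
  rw [this, map_zero]

theorem lin_pairT {x : Tup (g + 1) (Mat r ℂ)} (hx : Good x) (v : Tup (g + 1) (Mat r ℂ)) :
    lin (pairT x) (pairT v) = linC (x.1 0) (x.2 0) (v.1 0) (v.2 0) := by
  rw [lin_succ hx.pairT, lin_zero_tup, mul_zero, zero_mul, add_zero]
  rfl

theorem lin_split {x : Tup (g + 1) (Mat r ℂ)} (hx : Good x) (v : Tup (g + 1) (Mat r ℂ)) :
    lin x v = lin (pairT x) (pairT v) +
      prodC (pairT x) * lin (tailT x) (tailT v) * (prodC (pairT x))⁻¹ := by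
  rw [lin_succ hx, lin_pairT hx, prodC_pairT]

theorem trace_lin : ∀ {n : ℕ} {x : Tup n (Mat r ℂ)}, Good x →
    ∀ v, (lin x v).trace = 0
  | 0, x, _, v => by rw [lin_zero_tup, trace_zero]
  | n + 1, x, hx, v => by
    rw [lin_succ hx, trace_add]
    obtain ⟨A, hA⟩ := (Matrix.isUnit_iff_isUnit_det _).2 (isUnit_iff_ne_zero.2 (hx.1 0))
    obtain ⟨B, hB⟩ := (Matrix.isUnit_iff_isUnit_det _).2 (isUnit_iff_ne_zero.2 (hx.2 0))
    rw [← hA, ← hB]
    simp only [← Matrix.coe_units_inv, ← Units.val_mul, linC]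
    rw [trace_units_conj, trace_lin hx.tailT, add_zero, trace_sub, trace_sub, trace_add]
    have c1 : ∀ (U V : (Mat r ℂ)ˣ) (M : Mat r ℂ),
        ((U : Mat r ℂ) * M * V).trace = (M * (V * U : (Mat r ℂ)ˣ)).trace := fun U V M => by
      rw [mul_assoc, trace_mul_comm, mul_assoc, Units.val_mul]
    have t1 : ((A * B * A⁻¹ : (Mat r ℂ)ˣ) * v.1 0 * (B⁻¹ : (Mat r ℂ)ˣ) * (A⁻¹ : (Mat r ℂ)ˣ) :
        Mat r ℂ).trace = (v.1 0 * (A⁻¹ : (Mat r ℂ)ˣ)).trace := by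
      rw [mul_assoc _ ((B⁻¹ : (Mat r ℂ)ˣ) : Mat r ℂ), ← Units.val_mul, c1]
      congr 3
      group
    have t2 : ((A * B * A⁻¹ * B⁻¹ : (Mat r ℂ)ˣ) * v.2 0 * (A : Mat r ℂ) * (B⁻¹ : (Mat r ℂ)ˣ) *
        (A⁻¹ : (Mat r ℂ)ˣ) : Mat r ℂ).trace = (v.2 0 * (B⁻¹ : (Mat r ℂ)ˣ)).trace := by
      rw [mul_assoc _ ((B⁻¹ : (Mat r ℂ)ˣ) : Mat r ℂ), mul_assoc _ (A : Mat r ℂ), ← Units.val_mul,
        ← Units.val_mul, c1]
      congr 3
      group
    have t3 : ((A : Mat r ℂ) * v.2 0 * (B⁻¹ : (Mat r ℂ)ˣ) * (A⁻¹ : (Mat r ℂ)ˣ) : Mat r ℂ).trace =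
        (v.2 0 * (B⁻¹ : (Mat r ℂ)ˣ)).trace := by
      rw [mul_assoc _ ((B⁻¹ : (Mat r ℂ)ˣ) : Mat r ℂ), ← Units.val_mul, c1]
      congr 3
      group
    rw [t1, t2, t3]
    ring

theorem tailT_cons {M : Type*} (a b : M) (u v : Fin g → M) :
    tailT ((Fin.cons a u, Fin.cons b v) : Tup (g + 1) M) = (u, v) := by
  simp [tailT]

/-- The commutation argument for one handle. -/
theorem comm_of_units {M : Type*} [Monoid M] (A B : Mˣ) (Y : M)
    (hα : (↑A⁻¹ : M) * Y = ↑B⁻¹ * (↑A⁻¹ * (Y * (↑A * (↑B * ↑A⁻¹)))))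
    (hβ : (↑B⁻¹ : M) * (↑A⁻¹ * (Y * ↑A)) =
      ↑A * (↑B⁻¹ * (↑A⁻¹ * (Y * (↑A * (↑B * (↑A⁻¹ * ↑B⁻¹))))))) :
    Y * ↑A = ↑A * Y ∧ Y * ↑B = ↑B * Y := by
  set Z : M := ↑A⁻¹ * (Y * ↑A) with hZ
  have h1 : (↑B : M) * Z = Z * ↑B := by
    have h := congrArg (fun m : M => ↑B * (m * ↑A)) hα
    simpa [hZ, mul_assoc] using h
  have h1' : (↑B⁻¹ : M) * Z = Z * ↑B⁻¹ := by
    have h := congrArg (fun m : M => ↑B⁻¹ * (m * ↑B⁻¹)) h1
    simpa [mul_assoc] using h.symm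
  have h2 : (↑B⁻¹ : M) * Z = Y * ↑B⁻¹ := by
    rw [hβ]
    calc (↑A : M) * (↑B⁻¹ * (↑A⁻¹ * (Y * (↑A * (↑B * (↑A⁻¹ * ↑B⁻¹))))))
        = ↑A * ((↑B⁻¹ * Z) * (↑B * (↑A⁻¹ * ↑B⁻¹))) := by simp [hZ, mul_assoc]
      _ = ↑A * (Z * (↑A⁻¹ * ↑B⁻¹)) := by rw [h1']; simp [mul_assoc]
      _ = Y * ↑B⁻¹ := by simp [hZ, mul_assoc]
  have h3 : Z = Y := by
    have h := congrArg (fun m : M => m * ↑B) (h1'.symm.trans h2)
    simpa [mul_assoc] using h
  refine ⟨?_, by rw [← h3]; exact h1.symm⟩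
  have h := congrArg (fun m : M => ↑A * m) h3
  simpa [hZ] using h

/-- The annihilator of the range of `lin` lies in the commutant. -/
theorem lin_ann : ∀ {n : ℕ} {x : Tup n (Mat r ℂ)}, Good x → ∀ Y : Mat r ℂ,
    (∀ v, (Y * lin x v).trace = 0) → Y ∈ commA (fam x)
  | 0, x, _, Y, _ => mem_commA.2 fun j => j.elim (fun i => i.elim0) fun i => i.elim0
  | n + 1, x, hx, Y, hY => by
    obtain ⟨A, hA⟩ := (Matrix.isUnit_iff_isUnit_det _).2 (isUnit_iff_ne_zero.2 (hx.1 0))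
    obtain ⟨B, hB⟩ := (Matrix.isUnit_iff_isUnit_det _).2 (isUnit_iff_ne_zero.2 (hx.2 0))
    have h0 : ∀ α β : Mat r ℂ, (Y * linC (A : Mat r ℂ) (B : Mat r ℂ) α β).trace = 0 := fun α β => by
      have h := hY (Fin.cons α 0, Fin.cons β 0)
      rw [lin_succ hx, show tailT ((Fin.cons α 0, Fin.cons β 0) : Tup (n + 1) (Mat r ℂ)) = 0 from
        tailT_cons _ _ _ _, map_zero, mul_zero, zero_mul, add_zero] at h
      simp only [Fin.cons_zero, ← hA, ← hB] at h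
      exact h
    have hα : ((A⁻¹ : (Mat r ℂ)ˣ) : Mat r ℂ) * Y = (B⁻¹ : (Mat r ℂ)ˣ) * ((A⁻¹ : (Mat r ℂ)ˣ) *
        (Y * ((A : Mat r ℂ) * ((B : Mat r ℂ) * (A⁻¹ : (Mat r ℂ)ˣ))))) := by
      refine Matrix.ext_iff_trace_mul_right.2 fun α => ?_
      have h := h0 α 0
      simp only [linC, ← Matrix.coe_units_inv, mul_zero, zero_mul, add_zero, sub_zero, mul_sub,
        trace_sub, sub_eq_zero] at h
      rw [mul_assoc, trace_mul_comm, mul_assoc, h]
      rw [← mul_assoc Y _ (A⁻¹ : (Mat r ℂ)ˣ).1, trace_mul_comm, ← mul_assoc Y _ (B⁻¹ : (Mat r ℂ)ˣ).1,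
        ← mul_assoc (A⁻¹ : (Mat r ℂ)ˣ).1, trace_mul_comm]
      simp only [mul_assoc]
    have hβ : ((B⁻¹ : (Mat r ℂ)ˣ) : Mat r ℂ) * ((A⁻¹ : (Mat r ℂ)ˣ) * (Y * (A : Mat r ℂ))) =
        (A : Mat r ℂ) * ((B⁻¹ : (Mat r ℂ)ˣ) * ((A⁻¹ : (Mat r ℂ)ˣ) * (Y * ((A : Mat r ℂ) *
          ((B : Mat r ℂ) * ((A⁻¹ : (Mat r ℂ)ˣ) * (B⁻¹ : (Mat r ℂ)ˣ))))))) := by
      refine Matrix.ext_iff_trace_mul_right.2 fun β => ?_
      have h := h0 0 β
      simp only [linC, ← Matrix.coe_units_inv, mul_zero, zero_mul, zero_add, zero_sub, sub_zero,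
        mul_sub, trace_sub, sub_eq_zero] at h
      have c : ∀ U V M : Mat r ℂ, (U * V * M).trace = (V * M * U).trace := fun U V M => by
        rw [mul_assoc, trace_mul_comm]
      calc _ = (Y * ((A : Mat r ℂ) * β * (B⁻¹ : (Mat r ℂ)ˣ) * (A⁻¹ : (Mat r ℂ)ˣ))).trace := by
            rw [trace_mul_comm Y]
            rw [show (A : Mat r ℂ) * β * (B⁻¹ : (Mat r ℂ)ˣ) * (A⁻¹ : (Mat r ℂ)ˣ) * Y =
              (A : Mat r ℂ) * (β * ((B⁻¹ : (Mat r ℂ)ˣ) * ((A⁻¹ : (Mat r ℂ)ˣ) * Y))) from by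
              simp only [mul_assoc]]
            rw [trace_mul_comm (A : Mat r ℂ), trace_mul_comm _ β]
            simp only [mul_assoc]
        _ = _ := by
            rw [h, trace_mul_comm Y]
            rw [show (A : Mat r ℂ) * (B : Mat r ℂ) * (A⁻¹ : (Mat r ℂ)ˣ) * (B⁻¹ : (Mat r ℂ)ˣ) * β *
              (A : Mat r ℂ) * (B⁻¹ : (Mat r ℂ)ˣ) * (A⁻¹ : (Mat r ℂ)ˣ) * Y =
              ((A : Mat r ℂ) * ((B : Mat r ℂ) * ((A⁻¹ : (Mat r ℂ)ˣ) * (B⁻¹ : (Mat r ℂ)ˣ)))) *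
              (β * ((A : Mat r ℂ) * ((B⁻¹ : (Mat r ℂ)ˣ) * ((A⁻¹ : (Mat r ℂ)ˣ) * Y)))) from by
              simp only [mul_assoc]]
            rw [trace_mul_comm _ (β * _), trace_mul_comm _ β]
            simp only [mul_assoc]
    obtain ⟨cA, cB⟩ := comm_of_units A B Y hα hβ
    set U : (Mat r ℂ)ˣ := A * B * A⁻¹ * B⁻¹ with hU
    have cU : Commute Y (U : Mat r ℂ) := by
      rw [hU]
      simp only [Units.val_mul]
      exact (((Commute.mul_right cA cB).mul_right (Commute.units_inv_right cA)).mul_right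
        (Commute.units_inv_right cB))
    have ht : Y ∈ commA (fam (tailT x)) := lin_ann hx.tailT Y fun w => by
      have h := hY (Fin.cons 0 w.1, Fin.cons 0 w.2)
      rw [lin_succ hx, show tailT ((Fin.cons 0 w.1, Fin.cons 0 w.2) : Tup (n + 1) (Mat r ℂ)) = w
        from tailT_cons _ _ _ _, ← hA, ← hB] at h
      simp only [Fin.cons_zero, linC, mul_zero, zero_mul, add_zero, sub_zero, zero_add,
        ← Matrix.coe_units_inv, ← Units.val_mul, ← hU] at h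
      rwa [← mul_assoc, ← mul_assoc, cU.eq, mul_assoc (U : Mat r ℂ), trace_mul_cycle,
        Units.inv_mul, one_mul] at h
    rw [mem_commA] at ht ⊢
    rintro (i | i) <;> refine Fin.cases ?_ (fun i => ?_) i
    · simpa [fam, ← hA] using cA
    · exact ht (Sum.inl i)
    · simpa [fam, ← hB] using cB
    · exact ht (Sum.inr i)

/-- If the annihilator of a range lies in `A`, the range is large. -/
theorem finrank_le_of_ann {V M : Type*} [AddCommGroup V] [Module ℂ V] [FiniteDimensional ℂ V]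
    [AddCommGroup M] [Module ℂ M] [FiniteDimensional ℂ M] (f : V →ₗ[ℂ] M)
    (b : M →ₗ[ℂ] Module.Dual ℂ M) (A : Submodule ℂ M) (h : ∀ Y, (∀ v, b Y (f v) = 0) → Y ∈ A) :
    finrank ℂ M ≤ finrank ℂ (LinearMap.range f) + finrank ℂ A := by
  have h1 : finrank ℂ (LinearMap.range (f.dualMap.comp b)) ≤ finrank ℂ (LinearMap.range f) := by
    rw [← LinearMap.finrank_range_dualMap_eq_finrank_range f]
    exact Submodule.finrank_mono (LinearMap.range_comp_le_range b f.dualMap)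
  have h2 : LinearMap.ker (f.dualMap.comp b) ≤ A := fun Y hY =>
    h Y fun v => LinearMap.congr_fun (show f.dualMap.comp b Y = 0 from hY) v
  have h3 := (f.dualMap.comp b).finrank_range_add_finrank_ker
  have h4 := Submodule.finrank_mono h2
  omega

theorem le_finrank_range_lin {x : Tup n (Mat r ℂ)} (hx : Good x) :
    r * r ≤ finrank ℂ (LinearMap.range (lin x)) + finrank ℂ (commA (fam x)) := by
  have h := finrank_le_of_ann (lin x)
    (LinearMap.mk₂ ℂ (fun Y Z => (Y * Z).trace) (fun _ _ _ => by rw [add_mul, trace_add])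
      (fun _ _ _ => by rw [Matrix.smul_mul, trace_smul]) (fun _ _ _ => by rw [mul_add, trace_add])
      (fun _ _ _ => by rw [Matrix.mul_smul, trace_smul]))
    (commA (fam x)) (lin_ann hx)
  rwa [Module.finrank_matrix, Fintype.card_fin, Module.finrank_self, mul_one] at h

end Vale.Agent.P002
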