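import Vale.Agent.P002.Full.Basic

/-!
Functions which restrict to polynomials on every line, and quotients of them.
-/

namespace Vale.Agent.P002

open Polynomial

variable {V : Type*} [AddCommGroup V] [Module ℂ V] [TopologicalSpace V]

/-- A continuous function which is a polynomial on every line. -/
def Pol (F : V → ℂ) : Prop :=
  Continuous F ∧ ∀ p q : V, ∃ Q : ℂ[X], ∀ t : ℂ, F (p + t • q) = Q.eval t

/-- A quotient of two polynomial functions on a set. -/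
def RatOn (Ω : Set V) (F : V → ℂ) : Prop :=
  ∃ N D, Pol N ∧ Pol D ∧ ∀ p ∈ Ω, D p ≠ 0 ∧ F p = N p / D p

/-- The complement of the zero set of a polynomial function. -/
def RatSet (Ω : Set V) : Prop := ∃ D, Pol D ∧ Ω = {p | D p ≠ 0}

theorem Pol.const (c : ℂ) : Pol fun _ : V => c :=
  ⟨continuous_const, fun _ _ => ⟨C c, fun _ => (eval_C).symm⟩⟩

theorem Pol.linear (φ : V →L[ℂ] ℂ) : Pol fun p => φ p :=
  ⟨φ.continuous, fun p q => ⟨C (φ p) + X * C (φ q), fun t => by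
    simp only [map_add, map_smul, smul_eq_mul, eval_add, eval_mul, eval_C, eval_X]⟩⟩

theorem Pol.add {F G : V → ℂ} (hF : Pol F) (hG : Pol G) : Pol fun p => F p + G p :=
  ⟨hF.1.add hG.1, fun p q => by
    obtain ⟨Q, hQ⟩ := hF.2 p q
    obtain ⟨R, hR⟩ := hG.2 p q
    exact ⟨Q + R, fun t => by simp [hQ, hR]⟩⟩

theorem Pol.mul {F G : V → ℂ} (hF : Pol F) (hG : Pol G) : Pol fun p => F p * G p :=
  ⟨hF.1.mul hG.1, fun p q => by
    obtain ⟨Q, hQ⟩ := hF.2 p q
    obtain ⟨R, hR⟩ := hG.2 p q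
    exact ⟨Q * R, fun t => by simp [hQ, hR]⟩⟩

theorem ratSet_univ : RatSet (Set.univ : Set V) := ⟨fun _ => 1, Pol.const 1, by simp⟩

variable {Ω Ω' : Set V} {F G : V → ℂ}

theorem RatOn.of_pol (hF : Pol F) : RatOn Ω F :=
  ⟨F, fun _ => 1, hF, Pol.const 1, fun p _ => ⟨one_ne_zero, by simp⟩⟩

theorem RatOn.const (c : ℂ) : RatOn Ω fun _ => c := RatOn.of_pol (Pol.const c)

theorem RatOn.mono (hF : RatOn Ω F) (h : Ω' ⊆ Ω) : RatOn Ω' F :=
  let ⟨N, D, hN, hD, hND⟩ := hF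
  ⟨N, D, hN, hD, fun p hp => hND p (h hp)⟩

theorem RatOn.congr (hF : RatOn Ω F) (h : ∀ p ∈ Ω, G p = F p) : RatOn Ω G :=
  let ⟨N, D, hN, hD, hND⟩ := hF
  ⟨N, D, hN, hD, fun p hp => ⟨(hND p hp).1, (h p hp).trans (hND p hp).2⟩⟩

theorem RatOn.add (hF : RatOn Ω F) (hG : RatOn Ω G) : RatOn Ω fun p => F p + G p := by
  obtain ⟨N, D, hN, hD, h⟩ := hF
  obtain ⟨N', D', hN', hD', h'⟩ := hG
  refine ⟨fun p => N p * D' p + D p * N' p, fun p => D p * D' p, (hN.mul hD').add (hD.mul hN'),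
    hD.mul hD', fun p hp => ⟨mul_ne_zero (h p hp).1 (h' p hp).1, ?_⟩⟩
  simp only [(h p hp).2, (h' p hp).2, div_add_div _ _ (h p hp).1 (h' p hp).1]

theorem RatOn.mul (hF : RatOn Ω F) (hG : RatOn Ω G) : RatOn Ω fun p => F p * G p := by
  obtain ⟨N, D, hN, hD, h⟩ := hF
  obtain ⟨N', D', hN', hD', h'⟩ := hG
  refine ⟨fun p => N p * N' p, fun p => D p * D' p, hN.mul hN',
    hD.mul hD', fun p hp => ⟨mul_ne_zero (h p hp).1 (h' p hp).1, ?_⟩⟩
  simp only [(h p hp).2, (h' p hp).2, div_mul_div_comm]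

theorem RatOn.neg (hF : RatOn Ω F) : RatOn Ω fun p => -F p :=
  ((RatOn.const (-1)).mul hF).congr fun p _ => by ring

theorem RatOn.sub (hF : RatOn Ω F) (hG : RatOn Ω G) : RatOn Ω fun p => F p - G p :=
  (hF.add hG.neg).congr fun p _ => sub_eq_add_neg _ _

theorem RatOn.sum {ι : Type*} (s : Finset ι) (f : ι → V → ℂ) (h : ∀ i ∈ s, RatOn Ω (f i)) :
    RatOn Ω fun p => ∑ i ∈ s, f i p := by
  induction s using Finset.cons_induction with
  | empty => simpa using RatOn.const (V := V) 0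
  | cons i s hi ih =>
    simp only [Finset.sum_cons]
    exact (h i (by simp)).add (ih fun j hj => h j (by simp [hj]))

theorem RatOn.prod {ι : Type*} (s : Finset ι) (f : ι → V → ℂ) (h : ∀ i ∈ s, RatOn Ω (f i)) :
    RatOn Ω fun p => ∏ i ∈ s, f i p := by
  induction s using Finset.cons_induction with
  | empty => simpa using RatOn.const (V := V) 1
  | cons i s hi ih =>
    simp only [Finset.prod_cons]
    exact (h i (by simp)).mul (ih fun j hj => h j (by simp [hj]))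

theorem RatOn.inv (hF : RatOn Ω F) (h0 : ∀ p ∈ Ω, F p ≠ 0) : RatOn Ω fun p => (F p)⁻¹ := by
  obtain ⟨N, D, hN, hD, h⟩ := hF
  refine ⟨D, N, hD, hN, fun p hp => ⟨fun hN0 => h0 p hp ?_, ?_⟩⟩
  · simp only [(h p hp).2, hN0, zero_div]
  · simp only [(h p hp).2, inv_div]

theorem RatOn.div (hF : RatOn Ω F) (hG : RatOn Ω G) (h0 : ∀ p ∈ Ω, G p ≠ 0) :
    RatOn Ω fun p => F p / G p :=
  (hF.mul (hG.inv h0)).congr fun p _ => div_eq_mul_inv _ _

theorem RatSet.inter_ne_zero (hΩ : RatSet Ω) (hF : RatOn Ω F) :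
    RatSet (Ω ∩ {p | F p ≠ 0}) := by
  obtain ⟨E, hE, rfl⟩ := hΩ
  obtain ⟨N, D, hN, hD, h⟩ := hF
  refine ⟨fun p => E p * N p, hE.mul hN, Set.ext fun p => ?_⟩
  simp only [Set.mem_inter_iff, Set.mem_ofPred_eq, mul_ne_zero_iff]
  refine and_congr_right fun hp => ?_
  rw [(h p hp).2, div_ne_zero_iff]
  exact and_iff_left (h p hp).1

theorem RatSet.isOpen (hΩ : RatSet Ω) : IsOpen Ω := by
  obtain ⟨E, hE, rfl⟩ := hΩ
  exact isOpen_ne_fun hE.1 continuous_const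

theorem RatOn.continuousOn (hF : RatOn Ω F) : ContinuousOn F Ω := by
  obtain ⟨N, D, hN, hD, h⟩ := hF
  exact (hN.1.continuousOn.div hD.1.continuousOn fun p hp => (h p hp).1).congr fun p hp => (h p hp).2

/-- A rational function vanishing near one point of its set vanishes on the set. -/
theorem RatOn.eq_zero [IsTopologicalAddGroup V] [ContinuousSMul ℂ V] (hF : RatOn Ω F) {W : Set V}
    (hWo : IsOpen W) (hW : W ⊆ Ω) {p₀ : V} (hp₀ : p₀ ∈ W) (h0 : ∀ p ∈ W, F p = 0) :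
    ∀ p ∈ Ω, F p = 0 := by
  obtain ⟨N, D, hN, hD, h⟩ := hF
  intro p hp
  obtain ⟨Q, hQ⟩ := hN.2 p₀ (p - p₀)
  have hW0 : (fun t : ℂ => p₀ + t • (p - p₀)) ⁻¹' W ∈ nhds (0 : ℂ) :=
    (hWo.preimage (by fun_prop)).mem_nhds (by simpa using hp₀)
  have hzero : Q = 0 := by
    refine Polynomial.eq_zero_of_infinite_isRoot Q ((infinite_of_mem_nhds (0 : ℂ) hW0).mono ?_)
    intro t ht
    have hm := h _ (hW ht)
    have := h0 _ ht
    rw [hm.2, div_eq_zero_iff] at this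
    exact (hQ t).symm.trans (this.resolve_right hm.1)
  have : N p = 0 := by simpa [hzero] using hQ 1
  rw [(h p hp).2, this, zero_div]

end Vale.Agent.P002
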