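import Vale.Agent.P002.Full.Blocks

/-!
An invariant continuous function which vanishes on all Schur representations vanishes on all
representations.
-/

namespace Vale.Agent.P002

open Matrix Filter Topology

namespace Red

variable {r A B : ℕ}

/-- A tuple which is not Schur has two diagonal blocks after a conjugation. -/
theorem exists_blocks {n : ℕ} (x : Tup n (Mat r ℂ)) (hx : ¬ Schur x) :
    ∃ (A B : ℕ) (e : Fin A ⊕ Fin B ≃ Fin r) (S : Mat r ℂ) (σ : Tup n (Mat A ℂ))
      (ξ : Tup n (Matrix (Fin A) (Fin B) ℂ)) (ρ : Tup n (Mat B ℂ)),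
      0 < A ∧ 0 < B ∧ IsUnit S.det ∧ conjT S x = ext e σ ξ ρ := by
  simp only [Schur, SchurF, not_forall, not_exists, exists_prop] at hx
  obtain ⟨Y, hY, hns⟩ := hx
  have hne : Nonempty (Fin r) := by
    by_contra h
    rw [not_nonempty_iff] at h
    exact hns 0 (Subsingleton.elim _ _)
  obtain ⟨μ, hμ⟩ := Module.End.exists_eigenvalue (Matrix.toLin' Y)
  set K := Module.End.eigenspace (Matrix.toLin' Y) μ with hK
  have hbot : K ≠ ⊥ := hμ
  have htop : K ≠ ⊤ := by
    intro h
    refine hns μ (Matrix.toLin'.injective (LinearMap.ext fun v => ?_))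
    have hv : v ∈ K := h ▸ Submodule.mem_top
    rw [hK, Module.End.mem_eigenspace_iff] at hv
    rw [hv, map_smul, Matrix.toLin'_one, LinearMap.smul_apply, LinearMap.id_apply]
  obtain ⟨Q, hQ⟩ := K.exists_isCompl
  have hr : Module.finrank ℂ K + Module.finrank ℂ Q = r := by
    rw [Submodule.finrank_add_eq_of_isCompl hQ, Module.finrank_fin_fun]
  have hApos : 0 < Module.finrank ℂ K := by
    rw [Nat.pos_iff_ne_zero, Ne, Submodule.finrank_eq_zero]
    exact hbot
  have hBpos : 0 < Module.finrank ℂ Q := by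
    rw [Nat.pos_iff_ne_zero, Ne, Submodule.finrank_eq_zero]
    intro h
    exact htop (by simpa [h] using hQ.sup_eq_top)
  set e : Fin (Module.finrank ℂ K) ⊕ Fin (Module.finrank ℂ Q) ≃ Fin r :=
    finSumFinEquiv.trans (finCongr hr) with he
  set b : Module.Basis (Fin r) ℂ (Fin r → ℂ) :=
    (((Module.finBasis ℂ K).prod (Module.finBasis ℂ Q)).map
      (Submodule.prodEquivOfIsCompl K Q hQ)).reindex e with hb
  set S : Mat r ℂ := b.toMatrix (Pi.basisFun ℂ (Fin r)) with hS
  have hSinv : S * (Pi.basisFun ℂ (Fin r)).toMatrix b = 1 := by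
    rw [hS, Module.Basis.toMatrix_mul_toMatrix_flip]
  have hzero : ∀ a : Mat r ℂ, Y * a = a * Y → ∀ i j,
      (S * a * S⁻¹) (e (Sum.inr i)) (e (Sum.inl j)) = 0 := by
    intro a ha i j
    rw [inv_eq_right_inv hSinv, hS]
    have hconv : LinearMap.toMatrix (Pi.basisFun ℂ (Fin r)) (Pi.basisFun ℂ (Fin r))
        (Matrix.toLin' a) = a := by
      rw [LinearMap.toMatrix_eq_toMatrix', LinearMap.toMatrix'_toLin']
    have h := basis_toMatrix_mul_linearMap_toMatrix_mul_basis_toMatrix
      (b := b) (b' := Pi.basisFun ℂ (Fin r)) (c := b) (c' := Pi.basisFun ℂ (Fin r))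
      (f := Matrix.toLin' a)
    rw [hconv] at h
    rw [h, LinearMap.toMatrix_apply]
    have hbj : b (e (Sum.inl j)) = ((Module.finBasis ℂ K j : K) : Fin r → ℂ) := by
      simp [hb, Submodule.coe_prodEquivOfIsCompl', Module.Basis.prod_apply]
    have hK' : ∀ v, v ∈ K ↔ Matrix.toLin' Y v = μ • v := fun v => Module.End.mem_eigenspace_iff
    have hmem : a *ᵥ ((Module.finBasis ℂ K j : K) : Fin r → ℂ) ∈ K := by
      have hj := (hK' _).1 (Module.finBasis ℂ K j).2
      rw [hK', ← Matrix.toLin'_apply, ← LinearMap.comp_apply, ← Matrix.toLin'_mul, ha,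
        Matrix.toLin'_mul, LinearMap.comp_apply, hj, map_smul]
    simp [hb]
    rw [(Submodule.projectionOnto_apply_eq_zero_iff _).2 hmem]
    simp
  have hblk : ∀ a : Mat r ℂ, Y * a = a * Y → S * a * S⁻¹ =
      blk e (((Matrix.reindex e e).symm (S * a * S⁻¹)).toBlocks₁₁)
        (((Matrix.reindex e e).symm (S * a * S⁻¹)).toBlocks₁₂)
        (((Matrix.reindex e e).symm (S * a * S⁻¹)).toBlocks₂₂) := by
    intro a ha
    have h21 : ((Matrix.reindex e e).symm (S * a * S⁻¹)).toBlocks₂₁ = 0 := by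
      ext i j
      exact hzero a ha i j
    rw [blk, ← h21, fromBlocks_toBlocks, Equiv.apply_symm_apply]
  refine ⟨_, _, e, S,
    mapTup (fun a => ((Matrix.reindex e e).symm (S * a * S⁻¹)).toBlocks₁₁) x,
    mapTup (fun a => ((Matrix.reindex e e).symm (S * a * S⁻¹)).toBlocks₁₂) x,
    mapTup (fun a => ((Matrix.reindex e e).symm (S * a * S⁻¹)).toBlocks₂₂) x,
    hApos, hBpos, IsUnit.of_mul_eq_one _ (by rw [← det_mul, hSinv, det_one]), ?_⟩
  refine Prod.ext (funext fun i => hblk _ (hY (Sum.inl i))) (funext fun i => hblk _ (hY (Sum.inr i)))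

/-- Only finitely many scalars admit a nonzero intertwiner between two scaled matrices. -/
theorem finite_inter {N : Mat B ℂ} (hN : IsUnit N.det) (M : Mat A ℂ) :
    {t : ℂ | ∃ T : Matrix (Fin B) (Fin A) ℂ, T ≠ 0 ∧ T * M = t • (N * T)}.Finite := by
  let L : Module.End ℂ (Matrix (Fin B) (Fin A) ℂ) :=
    { toFun := fun T => N⁻¹ * T * M
      map_add' := fun T T' => by simp [Matrix.mul_add, Matrix.add_mul]
      map_smul' := fun c T => by simp }
  refine (Module.End.finite_hasEigenvalue L).subset fun t ⟨T, hT, h⟩ => ?_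
  refine Module.End.hasEigenvalue_of_hasEigenvector (x := T)
    ⟨Module.End.mem_eigenspace_iff.2 ?_, hT⟩
  show N⁻¹ * T * M = t • T
  rw [Matrix.mul_assoc, h, Matrix.mul_smul, ← Matrix.mul_assoc, nonsing_inv_mul N hN,
    Matrix.one_mul]

/-- Without intertwiners some nonsplit extension is a Schur representation. -/
theorem exists_schur_ext {g : ℕ} (e : Fin A ⊕ Fin B ≃ Fin r) (hA : 0 < A) (hB : 0 < B)
    {σ : Tup (g + 2) (Mat A ℂ)} {ρ : Tup (g + 2) (Mat B ℂ)} (hσ : PRep σ) (hρ : PRep ρ)
    (sσ : Schur σ) (sρ : Schur ρ)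
    (h₁ : ∀ T : Matrix (Fin B) (Fin A) ℂ, T * σ.1 0 = ρ.1 0 * T → T = 0)
    (h₂ : ∀ T : Matrix (Fin A) (Fin B) ℂ, T * ρ.1 0 = σ.1 0 * T → T = 0) :
    ∃ ξ, PRep (ext e σ ξ ρ) ∧ Schur (ext e σ ξ ρ) := by
  obtain ⟨L, hL⟩ := exists_linear e hσ.1 hρ.1
  let δ : Matrix (Fin A) (Fin B) ℂ →ₗ[ℂ] Tup (g + 2) (Matrix (Fin A) (Fin B) ℂ) :=
    { toFun := fun v => (fun i => σ.1 i * v - v * ρ.1 i, fun i => σ.2 i * v - v * ρ.2 i)
      map_add' := fun v w => by
        refine Prod.ext (funext fun i => ?_) (funext fun i => ?_) <;>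
          simp [Matrix.mul_add, Matrix.add_mul] <;> abel
      map_smul' := fun c v => by
        refine Prod.ext (funext fun i => ?_) (funext fun i => ?_) <;> simp [smul_sub] }
  have hnot : ¬ LinearMap.ker L ≤ LinearMap.range δ := by
    intro hle
    have h1 := L.finrank_range_add_finrank_ker
    have h2 := Submodule.finrank_le (LinearMap.range L)
    have h3 := Submodule.finrank_mono hle
    have h4 := δ.finrank_range_le
    simp only [Module.finrank_prod, Module.finrank_pi_fintype, Finset.sum_const, Finset.card_univ,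
      Fintype.card_fin, smul_eq_mul, Module.finrank_matrix, Module.finrank_self, mul_one] at h1 h2 h4
    have hpos : 0 < A * B := Nat.mul_pos hA hB
    have h5 : 0 ≤ g * (A * B) := Nat.zero_le _
    rw [Nat.add_mul] at h1
    omega
  obtain ⟨ξ, hξ, hξ'⟩ := SetLike.not_le_iff_exists.1 hnot
  refine ⟨ξ, ⟨(good_ext e ξ).2 ⟨hσ.1, hρ.1⟩, ?_⟩, ?_⟩
  · rw [hL, LinearMap.mem_ker.1 hξ, hσ.2, hρ.2, blk_one]
  intro Y hY
  set Z := (Matrix.reindex e e).symm Y with hZ
  have hYe : Y = Matrix.reindex e e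
      (fromBlocks Z.toBlocks₁₁ Z.toBlocks₁₂ Z.toBlocks₂₁ Z.toBlocks₂₂) := by
    rw [fromBlocks_toBlocks, hZ, Equiv.apply_symm_apply]
  generalize Z.toBlocks₁₁ = p at hYe
  generalize Z.toBlocks₁₂ = q at hYe
  generalize Z.toBlocks₂₁ = u at hYe
  generalize Z.toBlocks₂₂ = s at hYe
  have key : ∀ (a : Mat A ℂ) (w : Matrix (Fin A) (Fin B) ℂ) (b : Mat B ℂ),
      Y * blk e a w b = blk e a w b * Y →
      p * a = a * p + w * u ∧ p * w + q * b = a * q + w * s ∧ u * a = b * u ∧
        u * w + s * b = b * s := by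
    intro a w b h
    rw [hYe, blk] at h
    simp only [Matrix.reindex_apply, submatrix_mul_equiv, fromBlocks_multiply] at h
    have h' := (Matrix.reindex e e).injective (a₁ := fromBlocks _ _ _ _)
      (a₂ := fromBlocks _ _ _ _) (by simpa only [Matrix.reindex_apply] using h)
    rw [fromBlocks_inj] at h'
    simpa using h'
  have k1 := fun i => key _ _ _ (hY (Sum.inl i))
  have k2 := fun i => key _ _ _ (hY (Sum.inr i))
  have hu : u = 0 := h₁ u (k1 0).2.2.1
  subst hu
  simp only [Matrix.mul_zero, Matrix.zero_mul, add_zero, zero_add] at k1 k2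
  obtain ⟨c, hc⟩ := sσ p fun j => by
    rcases j with i | i
    · exact (k1 i).1
    · exact (k2 i).1
  obtain ⟨d, hd⟩ := sρ s fun j => by
    rcases j with i | i
    · exact (k1 i).2.2.2
    · exact (k2 i).2.2.2
  subst hc hd
  simp only [Matrix.smul_mul, Matrix.mul_smul, Matrix.one_mul, Matrix.mul_one] at k1 k2
  have hδ : δ q = (c - d) • ξ := by
    refine Prod.ext (funext fun i => ?_) (funext fun i => ?_)
    · show σ.1 i * q - q * ρ.1 i = (c - d) • ξ.1 i
      rw [sub_smul, sub_eq_sub_iff_add_eq_add]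
      exact ((k1 i).2.1).symm
    · show σ.2 i * q - q * ρ.2 i = (c - d) • ξ.2 i
      rw [sub_smul, sub_eq_sub_iff_add_eq_add]
      exact ((k2 i).2.1).symm
  have hcd : c = d := by
    by_contra hne
    refine hξ' ⟨(c - d)⁻¹ • q, ?_⟩
    rw [map_smul, hδ, smul_smul, inv_mul_cancel₀ (sub_ne_zero.2 hne), one_smul]
  subst hcd
  have hq : q = 0 := h₂ q (by
    have h : σ.1 0 * q - q * ρ.1 0 = (c - c) • ξ.1 0 := congrArg (fun w => w.1 0) hδ
    rw [sub_self, zero_smul, sub_eq_zero] at h
    exact h.symm)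
  subst hq
  refine ⟨c, ?_⟩
  rw [hYe, show fromBlocks (c • (1 : Mat A ℂ)) 0 0 (c • (1 : Mat B ℂ)) = c • 1 by
    rw [← fromBlocks_one, fromBlocks_smul]; simp]
  simp [Matrix.submatrix_smul]

theorem continuous_blk {X : Type*} [TopologicalSpace X] (e : Fin A ⊕ Fin B ≃ Fin r)
    {a : X → Mat A ℂ} {w : X → Matrix (Fin A) (Fin B) ℂ} {b : X → Mat B ℂ} (ha : Continuous a)
    (hw : Continuous w) (hb : Continuous b) : Continuous fun t => blk e (a t) (w t) (b t) := by
  simp only [blk, Matrix.reindex_apply]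
  exact (ha.matrix_fromBlocks hw continuous_const hb).matrix_submatrix _ _

theorem continuous_ext {X : Type*} [TopologicalSpace X] {n : ℕ} (e : Fin A ⊕ Fin B ≃ Fin r)
    {σ : X → Tup n (Mat A ℂ)} {ξ : X → Tup n (Matrix (Fin A) (Fin B) ℂ)} {ρ : X → Tup n (Mat B ℂ)}
    (hσ : Continuous σ) (hξ : Continuous ξ) (hρ : Continuous ρ) :
    Continuous fun t => ext e (σ t) (ξ t) (ρ t) :=
  Continuous.prodMk
    (continuous_pi fun i => continuous_blk e ((continuous_apply i).comp hσ.fst)
      ((continuous_apply i).comp hξ.fst) ((continuous_apply i).comp hρ.fst))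
    (continuous_pi fun i => continuous_blk e ((continuous_apply i).comp hσ.snd)
      ((continuous_apply i).comp hξ.snd) ((continuous_apply i).comp hρ.snd))

/-- The induction on the rank, with prescribed determinants. -/
theorem vanish {g : ℕ} : ∀ (r : ℕ) (δ : Tup (g + 2) ℂ) (F : Tup (g + 2) (Mat r ℂ) → ℂ),
    Continuous F →
    (∀ x, PRep x → dets x = δ → ∀ S : Mat r ℂ, IsUnit S.det → F (conjT S x) = F x) →
    (∀ x, PRep x → dets x = δ → Schur x → F x = 0) →
    ∀ x, PRep x → dets x = δ → F x = 0 := by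
  intro r
  induction r using Nat.strong_induction_on with
  | _ r ih =>
  intro δ F hF hinv h x hx hxδ
  by_cases hs : Schur x
  · exact h x hx hxδ hs
  obtain ⟨A, B, e, S, σ, ξ, ρ, hA, hB, hS, hconj⟩ := exists_blocks x hs
  have hAB : A + B = r := by simpa using Fintype.card_congr e
  have hx' := pRep_conjT hS hx
  rw [hconj] at hx'
  obtain ⟨hgσ, hgρ⟩ := (good_ext e ξ).1 hx'.1
  have hdets : dets σ * dets ρ = δ := by rw [← dets_ext e σ ξ ρ, ← hconj, dets_conjT hS, hxδ]
  obtain ⟨L₀, hL₀⟩ := exists_linear e hgσ hgρ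
  have hblocks : prodC σ = 1 ∧ prodC ρ = 1 := by
    have h1 := hx'.2
    rw [hL₀, ← blk_one e, blk, blk] at h1
    have h2 := (Matrix.reindex e e).injective h1
    rw [fromBlocks_inj] at h2
    exact ⟨h2.1, h2.2.2.2⟩
  have hpσ : PRep σ := ⟨hgσ, hblocks.1⟩
  have hpρ : PRep ρ := ⟨hgρ, hblocks.2⟩
  -- shrinking the upper blocks
  have shrink : ∀ {σ : Tup (g + 2) (Mat A ℂ)} {ρ : Tup (g + 2) (Mat B ℂ)} {ξ},
      PRep (ext e σ ξ ρ) → dets σ * dets ρ = δ → F (ext e σ 0 ρ) = F (ext e σ ξ ρ) := by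
    intro σ ρ ξ hp hd
    have hc : Continuous fun t : ℂ => F (ext e σ (t • ξ) ρ) :=
      hF.comp (continuous_ext e continuous_const (continuous_id.smul continuous_const)
        continuous_const)
    have hev : ∀ᶠ t in 𝓝[≠] (0 : ℂ), F (ext e σ (t • ξ) ρ) = F (ext e σ ξ ρ) := by
      filter_upwards [self_mem_nhdsWithin] with t ht
      rw [← conjT_scale e ht]
      refine hinv _ hp (by rw [dets_ext, hd]) _ (isUnit_blk_det e ?_ (by simp))
      rw [det_smul, det_one, mul_one]
      exact (pow_ne_zero _ ht).isUnit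
    have h0 := hc.tendsto 0
    simp only [zero_smul] at h0
    exact tendsto_nhds_unique (h0.mono_left nhdsWithin_le_nhds)
      (tendsto_const_nhds.congr' (hev.mono fun t ht => ht.symm))
  -- the value at a block diagonal of two Schur representations
  have core : ∀ (σ : Tup (g + 2) (Mat A ℂ)) (ρ : Tup (g + 2) (Mat B ℂ)), PRep σ → PRep ρ →
      Schur σ → Schur ρ → dets σ * dets ρ = δ → F (ext e σ 0 ρ) = 0 := by
    intro σ ρ hσ hρ sσ sρ hd
    set u : ℕ → ℝ := fun j => 1 / ((j : ℝ) + 1) with hu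
    set c : ℕ → ℂ := fun j => Complex.exp ((B : ℂ) * u j) with hc
    set d : ℕ → ℂ := fun j => Complex.exp (-((A : ℂ) * u j)) with hd'
    have hc0 : ∀ j, c j ≠ 0 := fun j => Complex.exp_ne_zero _
    have hd0 : ∀ j, d j ≠ 0 := fun j => Complex.exp_ne_zero _
    have hprod : ∀ j, c j ^ A * d j ^ B = 1 := fun j => by
      rw [hc, hd', ← Complex.exp_nat_mul, ← Complex.exp_nat_mul, ← Complex.exp_add]
      convert Complex.exp_zero using 2
      ring
    have hinj : Function.Injective u := fun i j hij => by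
      simp only [hu, one_div, _root_.inv_inj, add_left_inj] at hij
      exact_mod_cast hij
    have hratio : ∀ (κ : ℝ), κ ≠ 0 → Function.Injective fun j => Complex.exp ((κ * u j : ℝ) : ℂ) := by
      intro κ hκ i j hij
      simp only [← Complex.ofReal_exp, Complex.ofReal_inj, Real.exp_eq_exp] at hij
      exact hinj (mul_left_cancel₀ hκ hij)
    have hM : IsUnit (σ.1 0).det := (hσ.1.1 0).isUnit
    have hN : IsUnit (ρ.1 0).det := (hρ.1.1 0).isUnit
    have hABpos : (0 : ℝ) < (A : ℝ) + B := by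
      have : (0 : ℝ) < A := by exact_mod_cast hA
      positivity
    have hf1 := (finite_inter hN (σ.1 0)).preimage
      (hratio (-((A : ℝ) + B)) (neg_ne_zero.2 hABpos.ne')).injOn
    have hf2 := (finite_inter hM (ρ.1 0)).preimage (hratio ((A : ℝ) + B) hABpos.ne').injOn
    have hev : ∀ᶠ j in atTop, F (ext e (tw (c j) σ) 0 (tw (d j) ρ)) = 0 := by
      rw [← Nat.cofinite_eq_atTop]
      filter_upwards [hf1.compl_mem_cofinite, hf2.compl_mem_cofinite] with j hj1 hj2
      have hdj : dets (tw (c j) σ) * dets (tw (d j) ρ) = δ := by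
        rw [dets_tw, dets_tw, mul_mul_mul_comm, hd]
        have h1 : ((Function.update 1 0 (c j ^ A), 1) : Tup (g + 2) ℂ) *
            ((Function.update 1 0 (d j ^ B), 1) : Tup (g + 2) ℂ) = 1 := by
          refine Prod.ext (funext fun i => ?_) (by simp)
          rcases eq_or_ne i 0 with rfl | hi
          · simpa using hprod j
          · simp [hi]
        rw [h1, one_mul]
      obtain ⟨η, hη, hηs⟩ := exists_schur_ext e hA hB (pRep_tw (hc0 j) hσ) (pRep_tw (hd0 j) hρ)
        (schur_tw (hc0 j) sσ) (schur_tw (hd0 j) sρ)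
        (fun T hT => by
          by_contra hne
          refine hj1 ⟨T, hne, ?_⟩
          simp only [tw, Function.update_self, Matrix.mul_smul, Matrix.smul_mul] at hT
          have h := congrArg (fun M => (c j)⁻¹ • M) hT
          simp only [smul_smul, inv_mul_cancel₀ (hc0 j), one_smul] at h
          rw [h]
          congr 1
          simp only [hc, hd', ← Complex.exp_neg, ← Complex.exp_add]
          congr 1
          push_cast
          ring)
        (fun T hT => by
          by_contra hne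
          refine hj2 ⟨T, hne, ?_⟩
          simp only [tw, Function.update_self, Matrix.mul_smul, Matrix.smul_mul] at hT
          have h := congrArg (fun M => (d j)⁻¹ • M) hT
          simp only [smul_smul, inv_mul_cancel₀ (hd0 j), one_smul] at h
          rw [h]
          congr 1
          simp only [hc, hd', ← Complex.exp_neg, ← Complex.exp_add]
          congr 1
          push_cast
          ring)
      rw [shrink hη hdj]
      exact h _ hη (by rw [dets_ext, hdj]) hηs
    have hu0 : Tendsto u atTop (𝓝 0) := tendsto_one_div_add_atTop_nhds_zero_nat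
    have hcont : Continuous fun s : ℝ => F (ext e (tw (Complex.exp ((B : ℂ) * s)) σ) 0
        (tw (Complex.exp (-((A : ℂ) * s))) ρ)) := by
      refine hF.comp (continuous_ext e ?_ continuous_const ?_) <;>
        exact ((continuous_const.update 0 (by fun_prop)).prodMk continuous_const)
    have hlim := (hcont.tendsto 0).comp hu0
    simp only [Complex.ofReal_zero, mul_zero, neg_zero, Complex.exp_zero] at hlim
    have htw : ∀ {k : ℕ} (y : Tup (g + 2) (Mat k ℂ)), tw (1 : ℂ) y = y := fun y => by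
      simp [tw]
    rw [htw, htw] at hlim
    exact tendsto_nhds_unique hlim (tendsto_const_nhds.congr' (hev.mono fun j hj => hj.symm))
  -- the two inductions
  have hdiag : F (ext e σ 0 ρ) = 0 := by
    refine ih A (by omega) (dets σ) (fun s => F (ext e s 0 ρ))
      (hF.comp (continuous_ext e continuous_id continuous_const continuous_const))
      (fun s hs hsd T hT => ?_) (fun s hs hsd ss => ?_) σ hpσ rfl
    · have hp : PRep (ext e s 0 ρ) := by
        obtain ⟨L, hL⟩ := exists_linear e hs.1 hgρ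
        exact ⟨(good_ext e 0).2 ⟨hs.1, hgρ⟩, by rw [hL, map_zero, hs.2, hblocks.2, blk_one]⟩
      have h1 := hinv _ hp (by rw [dets_ext, hsd, hdets]) _
        (isUnit_blk_det e hT (show IsUnit (1 : Mat B ℂ).det by simp))
      rw [conjT_diag e hT (by simp), conjT_one] at h1
      exact h1
    refine ih B (by omega) (dets ρ) (fun t => F (ext e s 0 t))
      (hF.comp (continuous_ext e continuous_const continuous_const continuous_id))
      (fun t ht htd T hT => ?_) (fun t ht htd st => core s t hs ht ss st (by rw [hsd, htd, hdets]))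
      ρ hpρ rfl
    have hp : PRep (ext e s 0 t) := by
      obtain ⟨L, hL⟩ := exists_linear e hs.1 ht.1
      exact ⟨(good_ext e 0).2 ⟨hs.1, ht.1⟩, by rw [hL, map_zero, hs.2, ht.2, blk_one]⟩
    have h1 := hinv _ hp (by rw [dets_ext, hsd, htd, hdets]) _
      (isUnit_blk_det e (show IsUnit (1 : Mat A ℂ).det by simp) hT)
    rw [conjT_diag e (by simp) hT, conjT_one] at h1
    exact h1
  rw [← hinv x hx hxδ S hS, hconj, ← shrink hx' hdets, hdiag]

end Red

open Red in
theorem vanish_of_schur {g r : ℕ} (hr : r ≠ 0) (F : Tup (g + 2) (Mat r ℂ) → ℂ) (hF : Continuous F)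
    (hinv : ∀ x, IsRep x → ∀ S : Mat r ℂ, IsUnit S.det → F (conjT S x) = F x)
    (h : ∀ x, IsRep x → Schur x → F x = 0) :
    ∀ x, IsRep x → F x = 0 := by
  have hdet : ∀ x : Tup (g + 2) (Mat r ℂ), dets x = 1 → DetOne x := fun x hx =>
    ⟨fun i => congrFun (congrArg Prod.fst hx) i, fun i => congrFun (congrArg Prod.snd hx) i⟩
  intro x hx
  refine vanish r 1 F hF (fun y hy hyd => hinv y (isRep_of_pRep hy (hdet y hyd)))
    (fun y hy hyd => h y (isRep_of_pRep hy (hdet y hyd))) x (pRep_of_isRep hx) ?_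
  exact Prod.ext (funext hx.1.1) (funext hx.1.2)

end Vale.Agent.P002
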