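import Vale.Agent.P002.Span
import Vale.Agent.P002.Full.Dich
import Vale.Agent.P002.Full.Chart
import Vale.Agent.P002.Full.Red

/-!
Density of the integral representations among all Schur representations, and of their classes in
the character variety.
-/

namespace Vale.Agent.P002

open Matrix Filter Topology
open scoped Matrix.Norms.Operator

variable {g m : ℕ}

theorem ratOn_eval {V : Type*} [AddCommGroup V] [Module ℂ V] [TopologicalSpace V] {Ω : Set V}
    {n r : ℕ} {Ψ : V → Tup n (Mat r ℂ)} (h : ∀ v, RatOn Ω fun p => coords (Ψ p) v)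
    (f : MvPolynomial (Var n r) ℂ) : RatOn Ω fun p => MvPolynomial.eval (coords (Ψ p)) f := by
  induction f using MvPolynomial.induction_on with
  | C a => simpa using RatOn.const (V := V) a
  | add P Q hP hQ => simpa using hP.add hQ
  | mul_X P v hP => simpa using hP.mul (h v)

theorem schur_locus_A0 {c : ℂ} (hc : c ≠ 0) : Schur (locus (A0 (m := m) g c)) := by
  intro Y hY
  have hall : ∀ Z : Mat (m + 2) ℂ, Y * Z = Z * Y := fun Z => by
    have hZ : Z ∈ Algebra.adjoin ℂ (Set.range (A0 (m := m) g c)) := by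
      rw [adjoin_A0 (g := g) hc]; trivial
    induction hZ using Algebra.adjoin_induction with
    | mem Z hZ => obtain ⟨i, rfl⟩ := hZ; exact hY (Sum.inl i)
    | algebraMap a => exact (Algebra.commutes a Y).symm
    | add _ _ _ _ ha hb => rw [mul_add, add_mul, ha, hb]
    | mul a b _ _ ha hb => rw [← mul_assoc, ha, mul_assoc, hb, mul_assoc]
  obtain ⟨a, ha⟩ := Matrix.mem_range_scalar_of_commute_single (M := Y) fun i j _ =>
    (hall (Matrix.single i j 1)).symm
  refine ⟨a, ha.symm.trans ?_⟩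
  ext i j
  simp [Matrix.scalar_apply, Matrix.diagonal_apply, Matrix.one_apply]

/-- Every Schur representation lies in the closure of the integral ones. -/
theorem mem_zset_of_schur {x : Tup (g + 2) (Mat (m + 2) ℂ)} (hx : IsRep x) (hs : Schur x) :
    x ∈ Zset (g + 2) (m + 2) := by
  intro f hf
  obtain ⟨c, hc, hd⟩ := exists_unimodular (m := m)
  have hA : DetA (A0 (m := m) g c) := detA_A0 hd
  obtain ⟨U, hUo, hU0, hU⟩ := exists_open_of_span (Nat.succ_ne_zero (m + 1)) hA
    fun e he => mem_BB hd hc e.2 he.2.1 he.2.2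
  obtain ⟨Ω, Ψ, hΩ, hΨ, hrep, hcov⟩ := exists_chart g m
  obtain ⟨y, hyU, hy, hyO⟩ := exists_rep_ostar (Nat.succ_ne_zero (m + 1)) (isRep_locus _ hA)
    (schur_locus_A0 hc) (hUo.mem_nhds hU0)
  obtain ⟨p0, hp0, hpy⟩ := hcov y hy hyO
  have hF := ratOn_eval hΨ f
  have hcont : ContinuousOn Ψ Ω := by
    have e : Ψ = fun p => ofCoords (g + 2) (m + 2) (coords (Ψ p)) := rfl
    rw [e]
    exact (ofCoords (g + 2) (m + 2)).continuous_of_finiteDimensional.comp_continuousOn
      (continuousOn_pi.2 fun v => (hΨ v).continuousOn)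
  have hzero : ∀ p ∈ Ω, MvPolynomial.eval (coords (Ψ p)) f = 0 :=
    hF.eq_zero (hcont.isOpen_inter_preimage hΩ.isOpen hUo) Set.inter_subset_left
      ⟨hp0, show Ψ p0 ∈ U by rw [hpy]; exact hyU⟩ fun p hp => hU _ hp.2 (hrep p hp.1) f hf
  have hcl : x ∈ closure {y | MvPolynomial.eval (coords y) f = 0} := by
    rw [mem_closure_iff_nhds]
    intro W hW
    obtain ⟨y, hyW, hy, hyO⟩ := exists_rep_ostar (Nat.succ_ne_zero (m + 1)) hx hs hW
    obtain ⟨p, hp, rfl⟩ := hcov y hy hyO
    exact ⟨Ψ p, hyW, hzero p hp⟩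
  have hclosed : IsClosed {y : Tup (g + 2) (Mat (m + 2) ℂ) | MvPolynomial.eval (coords y) f = 0} :=
    isClosed_eq (contDiff_eval f).continuous continuous_const
  exact hclosed.closure_subset hcl

/-- An invariant polynomial which vanishes on the integral representations vanishes on all. -/
theorem eval_eq_zero_of_invariant (f : MvPolynomial (Var (g + 2) (m + 2)) ℂ)
    (hinv : ∀ x : Tup (g + 2) (Mat (m + 2) ℂ), IsRep x → ∀ S : Mat (m + 2) ℂ, S.det = 1 →
      MvPolynomial.eval (coords (conjT S x)) f = MvPolynomial.eval (coords x) f)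
    (hf : ∀ q : Tup (g + 2) (Mat (m + 2) ℤ), IsRep q → MvPolynomial.eval (coords (castC q)) f = 0)
    {x : Tup (g + 2) (Mat (m + 2) ℂ)} (hx : IsRep x) : MvPolynomial.eval (coords x) f = 0 := by
  refine vanish_of_schur (Nat.succ_ne_zero (m + 1))
    (fun x => MvPolynomial.eval (coords x) f) (contDiff_eval f).continuous (fun y hy S hS => ?_)
    (fun y hy hs => mem_zset_of_schur hy hs f hf) x hx
  obtain ⟨c, hc⟩ := IsAlgClosed.exists_pow_nat_eq (S.det)⁻¹ (Nat.succ_pos (m + 1))
  have hS0 : S.det ≠ 0 := hS.ne_zero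
  have hc0 : c ≠ 0 := fun h => by
    rw [h, zero_pow (Nat.succ_ne_zero _), eq_comm, inv_eq_zero] at hc
    exact hS0 hc
  have h1 : (c • S).det = 1 := by
    rw [det_smul, Fintype.card_fin, hc, inv_mul_cancel₀ hS0]
  have e : conjT (c • S) y = conjT S y := by
    simp only [conjT]
    congr 1
    funext a
    rw [inv_smul_mat hc0 hS0, Matrix.smul_mul, Matrix.mul_smul, Matrix.smul_mul, smul_smul,
      inv_mul_cancel₀ hc0, one_smul]
  rw [← e]
  exact hinv y hy _ h1

end Vale.Agent.P002
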