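import Vale.Agent.P002.Full.Lin

/-!
Near a representation with scalar commutant the representations form a manifold; where one handle
is free the other handles are free.
-/

namespace Vale.Agent.P002

open Matrix Module Filter Topology
open scoped Matrix.Norms.Operator

variable {n g r : ℕ}

/-- The traceless matrices. -/
def slM (r : ℕ) : Submodule ℂ (Mat r ℂ) := LinearMap.ker (Matrix.traceLinearMap (Fin r) ℂ ℂ)

theorem mem_slM {Y : Mat r ℂ} : Y ∈ slM r ↔ Y.trace = 0 := Iff.rfl

theorem range_lin_le {x : Tup n (Mat r ℂ)} (hx : Good x) : LinearMap.range (lin x) ≤ slM r := by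
  rintro _ ⟨v, rfl⟩
  exact trace_lin hx v

theorem finrank_slM (hr : r ≠ 0) : finrank ℂ (slM r) + 1 = r * r := by
  have h := (Matrix.traceLinearMap (Fin r) ℂ ℂ).finrank_range_add_finrank_ker
  have hs : LinearMap.range (Matrix.traceLinearMap (Fin r) ℂ ℂ) = ⊤ :=
    LinearMap.range_eq_top.2 fun c => ⟨(c / (r : ℂ)) • 1, by
      simp [trace_smul, trace_one, hr]⟩
  rw [hs, finrank_top, Module.finrank_matrix, Fintype.card_fin, Module.finrank_self, mul_one] at h
  change 1 + finrank ℂ (slM r) = r * r at h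
  omega

theorem range_lin_eq (hr : r ≠ 0) {x : Tup n (Mat r ℂ)} (hx : Good x) (hs : SchurF (fam x)) :
    LinearMap.range (lin x) = slM r := by
  refine Submodule.eq_of_le_of_finrank_le (range_lin_le hx) ?_
  have h1 := le_finrank_range_lin hx
  have h2 := (schurF_iff_finrank hr _).1 hs
  have h3 := finrank_slM hr
  omega

/-- The traceless part. -/
noncomputable def slP (r : ℕ) : Mat r ℂ →ₗ[ℂ] slM r where
  toFun Y := ⟨Y - (Y.trace / (r : ℂ)) • 1, by
    rw [mem_slM, trace_sub, trace_smul, trace_one, Fintype.card_fin, smul_eq_mul]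
    rcases eq_or_ne (r : ℂ) 0 with h | h
    · have : r = 0 := by exact_mod_cast h
      subst this
      simp [Matrix.trace]
    · rw [div_mul_cancel₀ _ h, sub_self]⟩
  map_add' a b := Subtype.ext (by
    simp only [trace_add, add_div, add_smul, Submodule.coe_add]; abel)
  map_smul' c a := Subtype.ext (by
    simp [trace_smul, smul_sub, smul_smul, mul_div_assoc])

theorem slP_of_mem {Y : Mat r ℂ} (hY : Y.trace = 0) : slP r Y = ⟨Y, hY⟩ :=
  Subtype.ext (by simp [slP, hY])

theorem slP_one (hr : r ≠ 0) : slP r 1 = 0 := Subtype.ext (by simp [slP, trace_one, hr])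

theorem slP_eq_zero {Y : Mat r ℂ} (h : slP r Y = 0) : Y = (Y.trace / (r : ℂ)) • 1 :=
  sub_eq_zero.1 (congrArg Subtype.val h)

/-- The traceless part of the product of commutators. -/
noncomputable def relEq (x : Tup n (Mat r ℂ)) : slM r :=
  (slP r).toContinuousLinearMap (prodC x)

theorem hasStrictFDerivAt_relEq {x : Tup n (Mat r ℂ)} (hx : PRep x) :
    ∃ D : Tup n (Mat r ℂ) →L[ℂ] slM r, HasStrictFDerivAt relEq D x ∧
      ∀ v, (D v : Mat r ℂ) = lin x v := by
  refine ⟨(slP r).toContinuousLinearMap.comp (fderiv ℂ prodC x),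
    (slP r).toContinuousLinearMap.hasStrictFDerivAt.comp x
      ((contDiffAt_prodC hx.1).hasStrictFDerivAt one_ne_zero), fun v => ?_⟩
  have e : fderiv ℂ prodC x v = lin x v := by rw [lin_apply, hx.2, inv_one, mul_one]
  change (slP r (fderiv ℂ prodC x v) : Mat r ℂ) = _
  rw [e, slP_of_mem (trace_lin hx.1 v)]

/-- Near a representation the equation `relEq = 0` cuts out the representations. -/
theorem eventually_pRep (hr : r ≠ 0) {x : Tup n (Mat r ℂ)} (hx : PRep x) :
    ∀ᶠ y in 𝓝 x, relEq y = 0 → PRep y := by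
  have hgood : ∀ᶠ y in 𝓝 x, Good y := by
    have h1 : ∀ i, Continuous fun y : Tup n (Mat r ℂ) => (y.1 i).det :=
      fun i => ((continuous_apply i).comp continuous_fst).matrix_det
    have h2 : ∀ i, Continuous fun y : Tup n (Mat r ℂ) => (y.2 i).det :=
      fun i => ((continuous_apply i).comp continuous_snd).matrix_det
    exact (eventually_all.2 fun i => (h1 i).continuousAt.eventually_ne (hx.1.1 i)).and
      (eventually_all.2 fun i => (h2 i).continuousAt.eventually_ne (hx.1.2 i))
  let c : Tup n (Mat r ℂ) → ℂ := fun y =>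
    (Matrix.traceLinearMap (Fin r) ℂ ℂ).toContinuousLinearMap (prodC y) / (r : ℂ)
  have hc : ContinuousAt c x :=
    ((Matrix.traceLinearMap (Fin r) ℂ ℂ).toContinuousLinearMap.continuous.continuousAt.comp
      (contDiffAt_prodC hx.1).continuousAt).div_const _
  have hcx : c x = 1 := by simp [c, hx.2, trace_one, hr]
  have hsum : ∀ᶠ y in 𝓝 x, ∑ i ∈ Finset.range r, c y ^ i ≠ 0 := by
    refine ContinuousAt.eventually_ne ?_ (by simp [hcx, hr])
    exact tendsto_finsetSum _ fun i _ => (hc.pow i)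
  filter_upwards [hgood, hsum] with y hg hs h0
  refine ⟨hg, ?_⟩
  have hy : prodC y = c y • 1 := slP_eq_zero h0
  have hd := det_prodC hg
  rw [hy, det_smul, det_one, mul_one, Fintype.card_fin] at hd
  have h1 := geom_sum_mul (c y) r
  rw [hd, sub_self, mul_eq_zero] at h1
  rw [hy, sub_eq_zero.1 (h1.resolve_left hs), one_smul]

/-- At a Schur representation every solution of the linearised equation is a velocity. -/
theorem exists_curve (hr : r ≠ 0) {x : Tup n (Mat r ℂ)} (hx : PRep x) (hs : SchurF (fam x))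
    {v : Tup n (Mat r ℂ)} (hv : lin x v = 0) :
    ∃ γ : ℂ → Tup n (Mat r ℂ), γ 0 = x ∧ (∀ᶠ s in 𝓝 0, PRep (γ s)) ∧ HasDerivAt γ v 0 := by
  obtain ⟨D, hD, hDv⟩ := hasStrictFDerivAt_relEq hx
  have hsur : LinearMap.range D.toLinearMap = ⊤ := LinearMap.range_eq_top.2 fun Z => by
    have hm : Z.1 ∈ LinearMap.range (lin x) := by
      rw [range_lin_eq hr hx.1 hs]
      exact Z.2
    obtain ⟨w, hw⟩ := hm
    exact ⟨w, Subtype.ext ((hDv w).trans hw)⟩
  have hvk : v ∈ D.ker := LinearMap.mem_ker.2 (Subtype.ext ((hDv v).trans hv))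
  let φ := hD.implicitFunction relEq D hsur (relEq x)
  let γ : ℂ → Tup n (Mat r ℂ) := fun s => φ (s • (⟨v, hvk⟩ : D.ker))
  have hγ0 : γ 0 = x := by
    simp only [γ, φ, zero_smul]
    exact hD.implicitFunction_apply_image hsur
  have hγd : HasDerivAt γ v 0 := by
    have h1 := (hD.to_implicitFunction hsur).hasFDerivAt
    have h2 : HasDerivAt (fun s : ℂ => s • (⟨v, hvk⟩ : D.ker)) ⟨v, hvk⟩ 0 := by
      have h := (hasDerivAt_id (0 : ℂ)).smul_const (⟨v, hvk⟩ : D.ker)
      rwa [one_smul] at h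
    exact h1.comp_hasDerivAt_of_eq 0 h2 (zero_smul ℂ _).symm
  refine ⟨γ, hγ0, ?_, hγd⟩
  have hev := hD.map_implicitFunction_eq hsur
  have htend : Tendsto (fun s : ℂ => (relEq x, s • (⟨v, hvk⟩ : D.ker))) (𝓝 0) (𝓝 (relEq x, 0)) := by
    refine (Continuous.tendsto' ?_ _ _ (by rw [zero_smul]))
    exact continuous_const.prodMk (continuous_id.smul continuous_const)
  have htγ : Tendsto γ (𝓝 0) (𝓝 x) := by
    have h := hγd.continuousAt.tendsto
    rwa [hγ0] at h
  filter_upwards [htend.eventually hev, htγ.eventually (eventually_pRep hr hx)] with s h1 h2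
  refine h2 (h1.trans ?_)
  change (slP r).toContinuousLinearMap (prodC x) = 0
  rw [hx.2]
  exact slP_one hr

/-- If the traceless equation together with a projection is a submersion, the projection of the
representations is open. -/
theorem eventually_exists_pRep {F : Type*} [NormedAddCommGroup F] [NormedSpace ℂ F]
    [FiniteDimensional ℂ F] (hr : r ≠ 0) (q : Tup n (Mat r ℂ) →L[ℂ] F)
    {x : Tup n (Mat r ℂ)} (hx : PRep x)
    (hsur : ∀ (Z : Mat r ℂ) (w : F), Z.trace = 0 → ∃ v, lin x v = Z ∧ q v = w)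
    {U : Set (Tup n (Mat r ℂ))} (hU : U ∈ 𝓝 x) :
    ∀ᶠ w in 𝓝 (q x), ∃ y ∈ U, PRep y ∧ q y = w := by
  obtain ⟨D, hD, hDv⟩ := hasStrictFDerivAt_relEq hx
  have hG := hD.prodMk q.hasStrictFDerivAt
  have hs : LinearMap.range (D.prod q).toLinearMap = ⊤ := LinearMap.range_eq_top.2 fun p => by
    obtain ⟨v, hv, hqv⟩ := hsur p.1.1 p.2 p.1.2
    exact ⟨v, Prod.ext (Subtype.ext ((hDv v).trans hv)) hqv⟩
  have h0 : relEq x = 0 := by
    change (slP r).toContinuousLinearMap (prodC x) = 0
    rw [hx.2]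
    exact slP_one hr
  have hmap := hG.map_nhds_eq_of_surj hs
  have him := image_mem_map (m := fun y => (relEq y, q y))
    (inter_mem hU (eventually_pRep hr hx))
  have him' := hmap.ge him
  rw [h0] at him'
  have htend : Tendsto (fun w : F => ((0 : slM r), w)) (𝓝 (q x)) (𝓝 (0, q x)) :=
    (continuous_const.prodMk continuous_id).tendsto _
  filter_upwards [htend.eventually_mem him'] with w hw
  obtain ⟨y, ⟨hyU, hyP⟩, he⟩ := hw
  exact ⟨y, hyU, hyP (congrArg Prod.fst he), congrArg Prod.snd he⟩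

/-- The projection to the first handle, linearly. -/
noncomputable def pairL (g r : ℕ) : Tup (g + 1) (Mat r ℂ) →L[ℂ] Tup 1 (Mat r ℂ) :=
  LinearMap.toContinuousLinearMap
    { toFun := pairT
      map_add' := fun _ _ => rfl
      map_smul' := fun _ _ => rfl }

/-- The projection to the other handles, linearly. -/
noncomputable def tailL (g r : ℕ) : Tup (g + 1) (Mat r ℂ) →L[ℂ] Tup g (Mat r ℂ) :=
  LinearMap.toContinuousLinearMap
    { toFun := tailT
      map_add' := fun _ _ => rfl
      map_smul' := fun _ _ => rfl }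

theorem pairL_apply (x : Tup (g + 1) (Mat r ℂ)) : pairL g r x = pairT x := rfl

theorem tailL_apply (x : Tup (g + 1) (Mat r ℂ)) : tailL g r x = tailT x := rfl

/-- A tuple from its first handle and the others. -/
def joinT {M : Type*} (p : Tup 1 M) (w : Tup g M) : Tup (g + 1) M :=
  (Fin.cons (p.1 0) w.1, Fin.cons (p.2 0) w.2)

theorem pairT_joinT {M : Type*} (p : Tup 1 M) (w : Tup g M) : pairT (joinT p w) = p := by
  refine Prod.ext (funext fun i => ?_) (funext fun i => ?_) <;> fin_cases i <;>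
    simp [pairT, joinT]

theorem tailT_joinT {M : Type*} (p : Tup 1 M) (w : Tup g M) : tailT (joinT p w) = w := by
  simp [tailT, joinT]

/-- If the first handle has scalar commutant, the others can be prescribed. -/
theorem eventually_tail (hr : r ≠ 0) {x : Tup (g + 1) (Mat r ℂ)} (hx : PRep x)
    (hp : SchurF (fam (pairT x))) {U : Set (Tup (g + 1) (Mat r ℂ))} (hU : U ∈ 𝓝 x) :
    ∀ᶠ w in 𝓝 (tailT x), ∃ y ∈ U, PRep y ∧ tailT y = w := by
  have h := eventually_exists_pRep hr (tailL g r) hx (fun Z w hZ => ?_) hU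
  · exact h
  set C := prodC (pairT x)
  have hmem : Z - C * lin (tailT x) w * C⁻¹ ∈ LinearMap.range (lin (pairT x)) := by
    rw [range_lin_eq hr hx.1.pairT hp, mem_slM, trace_sub, hZ, trace_mul_cycle,
      Matrix.nonsing_inv_mul _ (isUnit_det_prodC hx.1.pairT), one_mul, trace_lin hx.1.tailT,
      sub_zero]
  obtain ⟨p, hp'⟩ := hmem
  refine ⟨joinT p w, ?_, tailT_joinT p w⟩
  rw [lin_split hx.1, pairT_joinT, tailT_joinT, hp', sub_add_cancel]

/-- If the other handles have scalar commutant, the first can be prescribed. -/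
theorem eventually_pair (hr : r ≠ 0) {x : Tup (g + 1) (Mat r ℂ)} (hx : PRep x)
    (hp : SchurF (fam (tailT x))) {U : Set (Tup (g + 1) (Mat r ℂ))} (hU : U ∈ 𝓝 x) :
    ∀ᶠ w in 𝓝 (pairT x), ∃ y ∈ U, PRep y ∧ pairT y = w := by
  have h := eventually_exists_pRep hr (pairL g r) hx (fun Z w hZ => ?_) hU
  · exact h
  set C := prodC (pairT x)
  have hCu : IsUnit C.det := isUnit_det_prodC hx.1.pairT
  have hmem : C⁻¹ * (Z - lin (pairT x) w) * C ∈ LinearMap.range (lin (tailT x)) := by
    rw [range_lin_eq hr hx.1.tailT hp, mem_slM, trace_mul_cycle, Matrix.mul_nonsing_inv _ hCu,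
      one_mul, trace_sub, hZ, trace_lin hx.1.pairT, sub_zero]
  obtain ⟨p, hp'⟩ := hmem
  refine ⟨joinT w p, ?_, pairT_joinT w p⟩
  rw [lin_split hx.1, pairT_joinT, tailT_joinT, hp']
  rw [← mul_assoc, ← mul_assoc, Matrix.mul_nonsing_inv _ hCu, one_mul,
    Matrix.mul_nonsing_inv_cancel_right _ _ hCu, add_sub_cancel]

end Vale.Agent.P002
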