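import Vale.Agent.P002.Full.Line
import Vale.Agent.P002.Full.Tri

/-!
Matrices of rational functions.
-/

namespace Vale.Agent.P002

open Matrix

variable {V : Type*} [AddCommGroup V] [Module ℂ V] [TopologicalSpace V] {Ω Ω' : Set V}
  {r n : ℕ} {F G : V → Mat r ℂ}

/-- Every entry is rational on the set. -/
def RatMat (Ω : Set V) (F : V → Mat r ℂ) : Prop := ∀ i j, RatOn Ω fun p => F p i j

theorem RatMat.mono (hF : RatMat Ω F) (h : Ω' ⊆ Ω) : RatMat Ω' F :=
  fun i j => (hF i j).mono h

theorem RatMat.const (A : Mat r ℂ) : RatMat Ω fun _ => A := fun _ _ => RatOn.const _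

theorem RatMat.add (hF : RatMat Ω F) (hG : RatMat Ω G) : RatMat Ω fun p => F p + G p :=
  fun i j => (hF i j).add (hG i j)

theorem RatMat.sub (hF : RatMat Ω F) (hG : RatMat Ω G) : RatMat Ω fun p => F p - G p :=
  fun i j => (hF i j).sub (hG i j)

theorem RatMat.mul (hF : RatMat Ω F) (hG : RatMat Ω G) : RatMat Ω fun p => F p * G p :=
  fun i j => (RatOn.sum Finset.univ _ fun k _ => (hF i k).mul (hG k j)).congr
    fun _ _ => Matrix.mul_apply

theorem RatMat.smul {c : V → ℂ} (hc : RatOn Ω c) (hF : RatMat Ω F) :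
    RatMat Ω fun p => c p • F p :=
  fun i j => (hc.mul (hF i j)).congr fun _ _ => by simp

theorem RatMat.sum {ι : Type*} (s : Finset ι) (f : ι → V → Mat r ℂ)
    (h : ∀ k ∈ s, RatMat Ω (f k)) : RatMat Ω fun p => ∑ k ∈ s, f k p :=
  fun i j => (RatOn.sum s _ fun k hk => h k hk i j).congr fun _ _ => Matrix.sum_apply i j _ _

theorem RatMat.list_prod (l : List (V → Mat r ℂ)) (h : ∀ f ∈ l, RatMat Ω f) :
    RatMat Ω fun p => (l.map fun f => f p).prod := by
  induction l with
  | nil => simpa using RatMat.const 1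
  | cons f l ih =>
    simp only [List.map_cons, List.prod_cons]
    exact (h f (by simp)).mul (ih fun f hf => h f (by simp [hf]))

theorem RatMat.diagonal {d : V → Fin r → ℂ} (hd : ∀ i, RatOn Ω fun p => d p i) :
    RatMat Ω fun p => Matrix.diagonal (d p) := by
  intro i j
  by_cases h : i = j
  · subst h
    simpa using hd i
  · simpa [Matrix.diagonal_apply_ne _ h] using RatOn.const (V := V) 0

theorem RatMat.det (hF : RatMat Ω F) : RatOn Ω fun p => (F p).det :=
  (RatOn.sum Finset.univ _ fun σ _ => ((RatOn.const (((Equiv.Perm.sign σ : ℤ) : ℂ))).mul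
    (RatOn.prod Finset.univ _ fun i _ => hF (σ i) i))).congr
      fun p _ => Matrix.det_apply' (F p)

theorem RatMat.adjugate (hF : RatMat Ω F) : RatMat Ω fun p => Matrix.adjugate (F p) := by
  intro i j
  simp only [Matrix.adjugate_apply]
  refine RatMat.det fun k l => ?_
  simp only [Matrix.updateRow_apply]
  split_ifs with h
  · exact RatOn.const _
  · exact hF k l

theorem RatMat.inv (hF : RatMat Ω F) (h0 : ∀ p ∈ Ω, (F p).det ≠ 0) :
    RatMat Ω fun p => (F p)⁻¹ := by
  intro i j
  refine (((hF.det).inv h0).mul (hF.adjugate i j)).congr fun p _ => ?_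
  simp [Matrix.inv_def, Ring.inverse_eq_inv']

theorem RatMat.blk {a : V → ℂ} {u c : V → Fin n → ℂ} {D : V → Mat n ℂ} (ha : RatOn Ω a)
    (hu : ∀ i, RatOn Ω fun p => u p i) (hc : ∀ i, RatOn Ω fun p => c p i) (hD : RatMat Ω D) :
    RatMat Ω fun p => Vale.Agent.P002.blk (a p) (u p) (c p) (D p) := by
  intro i j
  refine Fin.cases ?_ (fun i => ?_) i <;> refine Fin.cases ?_ (fun j => ?_) j
  · simpa using ha
  · simpa using hu j
  · simpa using hc i
  · simpa using hD i j

end Vale.Agent.P002
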