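import Vale.Agent.P002.Full.Centralizer

/-!
The directions in which a matrix can move while it keeps an eigenspace of given dimension.
-/

namespace Vale.Agent.P002

open Matrix Module Filter Topology
open scoped Matrix.Norms.Operator

variable {r : ℕ}

/-- A basis of a subspace as the columns of a matrix, with a left inverse. -/
theorem exists_frame (W : Submodule ℂ (Fin r → ℂ)) {k : ℕ} (hk : finrank ℂ W = k) :
    ∃ (U : Matrix (Fin r) (Fin k) ℂ) (L : Matrix (Fin k) (Fin r) ℂ),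
      L * U = 1 ∧ ∀ j, (fun i => U i j) ∈ W := by
  let b : Basis (Fin k) ℂ W := Module.finBasisOfFinrankEq ℂ W hk
  let f : (Fin k → ℂ) →ₗ[ℂ] (Fin r → ℂ) := W.subtype.comp b.equivFun.symm.toLinearMap
  have hf : LinearMap.ker f = ⊥ :=
    LinearMap.ker_eq_bot.2 (Subtype.val_injective.comp b.equivFun.symm.injective)
  obtain ⟨g, hg⟩ := LinearMap.exists_leftInverse_of_injective f hf
  refine ⟨LinearMap.toMatrix' f, LinearMap.toMatrix' g, ?_, fun j => ?_⟩
  · rw [← LinearMap.toMatrix'_comp, hg, LinearMap.toMatrix'_id]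
  · have e : (fun i => LinearMap.toMatrix' f i j) = f (Pi.single j 1) := by
      funext i
      rw [LinearMap.toMatrix'_apply]
    rw [e]
    exact (b.equivFun.symm (Pi.single j 1)).2

theorem finrank_ker_toLin'_transpose (M : Mat r ℂ) :
    finrank ℂ (LinearMap.ker (Matrix.toLin' Mᵀ)) = finrank ℂ (LinearMap.ker (Matrix.toLin' M)) := by
  have h1 := LinearMap.finrank_range_add_finrank_ker (Matrix.toLin' Mᵀ)
  have h2 := LinearMap.finrank_range_add_finrank_ker (Matrix.toLin' M)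
  have h3 : finrank ℂ (LinearMap.range (Matrix.toLin' Mᵀ)) =
      finrank ℂ (LinearMap.range (Matrix.toLin' M)) := Matrix.rank_transpose M
  omega

/-- The compression to the two eigenspaces, linearly. -/
noncomputable def comprL {k : ℕ} (Φ : Matrix (Fin k) (Fin r) ℂ) (U : Matrix (Fin r) (Fin k) ℂ) :
    Mat r ℂ →ₗ[ℂ] Matrix (Fin k) (Fin k) ℂ where
  toFun M := Φ * M * U
  map_add' a b := by rw [Matrix.mul_add, Matrix.add_mul]
  map_smul' c a := by rw [Matrix.mul_smul, Matrix.smul_mul]; rfl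

/-- The data attached to an eigenspace of dimension `k` of `X`. -/
structure Frame (X : Mat r ℂ) (μ : ℂ) (k : ℕ) where
  /-- the eigenvectors -/
  U : Matrix (Fin r) (Fin k) ℂ
  /-- the left eigenvectors -/
  Φ : Matrix (Fin k) (Fin r) ℂ
  /-- a left inverse of `U` -/
  L : Matrix (Fin k) (Fin r) ℂ
  /-- a right inverse of `Φ` -/
  R : Matrix (Fin r) (Fin k) ℂ
  hLU : L * U = 1
  hΦR : Φ * R = 1
  hNU : (X - μ • 1) * U = 0
  hΦN : Φ * (X - μ • 1) = 0

theorem exists_Frame {X : Mat r ℂ} {μ : ℂ} {k : ℕ} (hμ : eigDim X μ = k) :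
    Nonempty (Frame X μ k) := by
  obtain ⟨U, L, hLU, hU⟩ := exists_frame (LinearMap.ker (Matrix.toLin' (X - μ • 1))) hμ
  obtain ⟨V, R', hRV, hV⟩ := exists_frame (LinearMap.ker (Matrix.toLin' (X - μ • 1)ᵀ))
    ((finrank_ker_toLin'_transpose _).trans hμ)
  refine ⟨⟨U, Vᵀ, L, R'ᵀ, hLU, by rw [← transpose_mul, hRV, transpose_one], ?_, ?_⟩⟩
  · ext i j
    exact congrFun (LinearMap.mem_ker.1 (hU j)) i
  · have h : (X - μ • 1)ᵀ * V = 0 := by
      ext i j
      exact congrFun (LinearMap.mem_ker.1 (hV j)) i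
    rw [← Matrix.transpose_inj, transpose_mul, transpose_transpose, h, transpose_zero]

theorem Frame.mul_ne_zero {X : Mat r ℂ} {μ : ℂ} {k : ℕ} (f : Frame X μ k) (hk : r < 2 * k) :
    f.Φ * f.U ≠ 0 := by
  obtain ⟨U, Φ, L, R, hLU, hΦR, hNU, hΦN⟩ := f
  intro h0
  have hle' : LinearMap.range (Matrix.toLin' U) ≤ LinearMap.ker (Matrix.toLin' Φ) := by
    rintro _ ⟨v, rfl⟩
    rw [LinearMap.mem_ker, ← Matrix.toLin'_mul_apply, h0, map_zero, LinearMap.zero_apply]
  have hUr : finrank ℂ (LinearMap.range (Matrix.toLin' U)) = k := by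
    rw [LinearMap.finrank_range_of_inj, finrank_fin_fun]
    intro a b hab
    have := congrArg (Matrix.toLin' L) hab
    rwa [← Matrix.toLin'_mul_apply, ← Matrix.toLin'_mul_apply, hLU, Matrix.toLin'_one] at this
  have hΦr : finrank ℂ (LinearMap.range (Matrix.toLin' Φ)) = k := by
    rw [LinearMap.range_eq_top.2, finrank_top, finrank_fin_fun]
    intro v
    exact ⟨Matrix.toLin' R v, by rw [← Matrix.toLin'_mul_apply, hΦR, Matrix.toLin'_one]; rfl⟩
  have h1 := LinearMap.finrank_range_add_finrank_ker (Matrix.toLin' Φ)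
  have h2 := Submodule.finrank_mono hle'
  rw [hUr] at h2
  rw [finrank_fin_fun, hΦr] at h1
  omega

theorem finrank_comap_comprL_le {X : Mat r ℂ} {μ : ℂ} {k : ℕ} (f : Frame X μ k) (hkr : k < r) :
    finrank ℂ ((ℂ ∙ (f.Φ * f.U)).comap (comprL f.Φ f.U) : Submodule ℂ (Mat r ℂ)) +
      2 * (r * k) ≤ 2 * (r * r) := by
  obtain ⟨U, Φ, L, R, hLU, hΦR, hNU, hΦN⟩ := f
  set Ψ := comprL Φ U with hΨdef
  have hΨ : LinearMap.range Ψ = ⊤ := LinearMap.range_eq_top.2 fun Z => ⟨R * Z * L, by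
    change Φ * (R * Z * L) * U = Z
    rw [← Matrix.mul_assoc, ← Matrix.mul_assoc, hΦR, Matrix.one_mul, Matrix.mul_assoc, hLU,
      Matrix.mul_one]⟩
  let Ψ' : ((ℂ ∙ (Φ * U)).comap Ψ) →ₗ[ℂ] (ℂ ∙ (Φ * U) : Submodule ℂ _) :=
    Ψ.restrict fun x hx => hx
  have h1 := LinearMap.finrank_range_add_finrank_ker (K := ℂ)
    (V := ((ℂ ∙ (Φ * U)).comap Ψ : Submodule ℂ _))
    (V₂ := (ℂ ∙ (Φ * U) : Submodule ℂ (Matrix (Fin k) (Fin k) ℂ))) Ψ'
  have h2 : finrank ℂ (LinearMap.range Ψ') ≤ 1 :=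
    (Submodule.finrank_le (LinearMap.range Ψ')).trans
      ((finrank_span_le_card ({Φ * U} : Set (Matrix (Fin k) (Fin k) ℂ))).trans_eq (by simp))
  have h3 : finrank ℂ (LinearMap.ker Ψ') ≤ finrank ℂ (LinearMap.ker Ψ) := by
    refine LinearMap.finrank_le_finrank_of_injective
      (f := { toFun := fun z => ⟨z.1.1, congrArg Subtype.val (LinearMap.mem_ker.1 z.2)⟩
              map_add' := fun _ _ => rfl
              map_smul' := fun _ _ => rfl }) ?_
    exact fun a b hab => Subtype.ext (Subtype.ext (congrArg (fun z => z.1) hab :))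
  have h4 := Ψ.finrank_range_add_finrank_ker
  rw [hΨ, finrank_top, Module.finrank_matrix, Module.finrank_matrix, Fintype.card_fin,
    Fintype.card_fin, Module.finrank_self, mul_one, mul_one] at h4
  obtain ⟨t, rfl⟩ : ∃ t, r = k + 1 + t := ⟨r - (k + 1), by omega⟩
  nlinarith

theorem Frame.continuousAt_eigenvalue {X : Mat r ℂ} {μ : ℂ} {k : ℕ} (f : Frame X μ k)
    (hk2 : r < 2 * k) {γ : ℂ → Mat r ℂ} (hγ0 : γ 0 = X) (hγ : ContinuousAt γ 0) {l : ℂ → ℂ}
    (hl0 : l 0 = μ) (hl : ∀ᶠ s in 𝓝 0, k ≤ eigDim (γ s) (l s)) : ContinuousAt l 0 := by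
  obtain ⟨U, Φ, L, R, hLU, hΦR, hNU, hΦN⟩ := f
  set N : Mat r ℂ := X - μ • 1 with hN
  let D : ℂ → Matrix (Fin k) (Fin k) ℂ := fun s => Φ * (γ s - X) * R
  have hbound : ∀ᶠ s in 𝓝 0, ‖l s - μ‖ ≤ ‖D s‖ := by
    filter_upwards [hl] with s hs
    set W := LinearMap.range (Matrix.toLin' R) with hW
    have hWk : finrank ℂ W = k := by
      rw [hW, LinearMap.finrank_range_of_inj, finrank_fin_fun]
      intro a b hab
      have := congrArg (Matrix.toLin' Φ) hab
      rwa [← Matrix.toLin'_mul_apply, ← Matrix.toLin'_mul_apply, hΦR, Matrix.toLin'_one] at this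
    set K := LinearMap.ker (Matrix.toLin' (γ s - l s • 1))
    have hne' : W ⊓ K ≠ ⊥ := by
      intro hb
      have h1 := Submodule.finrank_sup_add_finrank_inf_eq W K
      rw [hb, finrank_bot, hWk] at h1
      have h2 := (Submodule.finrank_le (W ⊔ K)).trans (finrank_fin_fun ℂ).le
      have h3 : k ≤ finrank ℂ K := hs
      omega
    obtain ⟨v, hv, hv0⟩ := Submodule.exists_mem_ne_zero_of_ne_bot hne'
    obtain ⟨⟨c, hc⟩, hvK⟩ := Submodule.mem_inf.1 hv
    have hc0 : c ≠ 0 := by rintro rfl; exact hv0 (by rw [← hc, map_zero])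
    have hvK' : (γ s - l s • 1) *ᵥ (R *ᵥ c) = 0 := by
      rw [← Matrix.toLin'_apply R c, hc]
      exact hvK
    have e : D s *ᵥ c = (l s - μ) • c := by
      have h1 : Φ * (γ s - X) * R = Φ * (γ s - l s • 1) * R + (l s - μ) • (1 : Matrix (Fin k) (Fin k) ℂ) := by
        have : γ s - X = (γ s - l s • 1) + (l s - μ) • (1 : Mat r ℂ) - N := by
          rw [hN, sub_smul]; abel
        rw [this, Matrix.mul_sub, Matrix.sub_mul, hΦN, Matrix.zero_mul, sub_zero, Matrix.mul_add,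
          Matrix.add_mul, Matrix.mul_smul, Matrix.smul_mul, Matrix.mul_one, hΦR]
      simp only [D, h1, Matrix.add_mulVec, Matrix.smul_mulVec, Matrix.one_mulVec,
        ← Matrix.mulVec_mulVec, hvK', Matrix.mulVec_zero, zero_add]
    have h := Matrix.linfty_opNorm_mulVec (D s) c
    rw [e, norm_smul] at h
    exact le_of_mul_le_mul_right h (norm_pos_iff.2 hc0)
  rw [ContinuousAt, hl0, tendsto_iff_norm_sub_tendsto_zero]
  refine squeeze_zero' (Eventually.of_forall fun s => norm_nonneg _) hbound ?_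
  have hD : ContinuousAt D 0 :=
    (((LinearMap.toContinuousLinearMap
      ({ toFun := fun M => Φ * M * R
         map_add' := fun a b => by simp [Matrix.mul_add, Matrix.add_mul]
         map_smul' := fun c a => by simp } : Mat r ℂ →ₗ[ℂ] Matrix (Fin k) (Fin k) ℂ)).continuous
      ).continuousAt).comp (hγ.sub continuousAt_const)
  have h0 : D 0 = 0 := by simp [D, hγ0]
  have h := hD.norm
  simpa [ContinuousAt, h0] using h

theorem Frame.deriv_mem {X : Mat r ℂ} {μ : ℂ} {k : ℕ} (f : Frame X μ k) (hk2 : r < 2 * k)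
    (hμk : eigDim X μ = k) {γ : ℂ → Mat r ℂ} (hγ0 : γ 0 = X) {X' : Mat r ℂ}
    (hγ : HasDerivAt γ X' 0) {l : ℂ → ℂ} (hl0 : l 0 = μ)
    (hl : ∀ᶠ s in 𝓝 0, k ≤ eigDim (γ s) (l s)) :
    X' ∈ (ℂ ∙ (f.Φ * f.U)).comap (comprL f.Φ f.U) := by
  have hlc := f.continuousAt_eigenvalue hk2 hγ0 hγ.continuousAt hl0 hl
  have hne := f.mul_ne_zero hk2
  obtain ⟨U, Φ, L, R, hLU, hΦR, hNU, hΦN⟩ := f
  set N : Mat r ℂ := X - μ • 1 with hN
  let toM : Mat r ℂ →L[ℂ] (Fin r → ℂ) →L[ℂ] (Fin r → ℂ) := LinearMap.toContinuousLinearMap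
    ((LinearMap.toContinuousLinearMap :
      ((Fin r → ℂ) →ₗ[ℂ] (Fin r → ℂ)) ≃ₗ[ℂ] ((Fin r → ℂ) →L[ℂ] (Fin r → ℂ))).toLinearMap.comp
        (Matrix.toLin' : Mat r ℂ ≃ₗ[ℂ] _).toLinearMap)
  let F : ℂ → (Fin r → ℂ) →L[ℂ] (Fin r → ℂ) := fun s => toM (γ s - l s • 1)
  have hF : ContinuousAt F 0 :=
    toM.continuous.continuousAt.comp (hγ.continuousAt.sub (hlc.smul continuousAt_const))
  have hge : ∀ᶠ s in 𝓝 0, finrank ℂ (F 0).ker ≤ finrank ℂ (F s).ker := by
    filter_upwards [hl] with s hs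
    change eigDim (γ 0) (l 0) ≤ eigDim (γ s) (l s)
    rw [hl0, hγ0, hμk]
    exact hs
  have hwit : ∀ j, ∃ w : ℂ → Fin r → ℂ, w 0 = (fun i => U i j) ∧
      (∀ᶠ s in 𝓝 0, F s (w s) = 0) ∧ ContinuousAt w 0 := fun j => by
    obtain ⟨w, h1, h2, h3, -⟩ := exists_ker_curve hF hge (u := fun i => U i j) (by
      change Matrix.toLin' (γ 0 - l 0 • 1) _ = 0
      rw [hl0, hγ0]
      exact funext fun i => congrFun (congrFun hNU i) j)
    exact ⟨w, h1, h2, h3⟩
  choose w hw0 hwk hwc using hwit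
  let Us : ℂ → Matrix (Fin r) (Fin k) ℂ := fun s => Matrix.of fun i j => w j s i
  have hUse : ∀ a b, Tendsto (fun s => Us s a b) (𝓝[≠] 0) (𝓝 (U a b)) := fun a b => by
    have h1 := ((continuous_apply a).continuousAt.comp (hwc b)).tendsto.mono_left
      (nhdsWithin_le_nhds (s := {(0 : ℂ)}ᶜ))
    simpa [Us, hw0, Function.comp_def] using h1
  have heq : ∀ᶠ s in 𝓝 0, Φ * (γ s - X) * Us s = (l s - μ) • (Φ * Us s) := by
    filter_upwards [eventually_all.2 hwk] with s hs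
    have h0 : (γ s - l s • 1) * Us s = 0 := by
      ext i j
      exact congrFun (hs j) i
    have e : γ s - X = (γ s - l s • 1) + (l s - μ) • (1 : Mat r ℂ) - N := by
      rw [hN, sub_smul]; abel
    rw [e, Matrix.mul_sub, Matrix.sub_mul, hΦN, Matrix.zero_mul, sub_zero, Matrix.mul_add,
      Matrix.add_mul, Matrix.mul_assoc, h0, Matrix.mul_zero, zero_add, Matrix.mul_smul,
      Matrix.smul_mul, Matrix.mul_one]
  obtain ⟨i, j, hij⟩ : ∃ i j, (Φ * U) i j ≠ 0 := by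
    by_contra! h
    exact hne (Matrix.ext h)
  have hslope : Tendsto (fun s : ℂ => s⁻¹ • (γ s - X)) (𝓝[≠] 0) (𝓝 X') := by
    refine (hasDerivAt_iff_tendsto_slope.1 hγ).congr' (Eventually.of_forall fun s => ?_)
    simp [slope, hγ0]
  have hsl : ∀ a b, Tendsto (fun s : ℂ => (s⁻¹ • (γ s - X)) a b) (𝓝[≠] 0) (𝓝 (X' a b)) :=
    fun a b => ((Matrix.entryLinearMap ℂ ℂ a b).toContinuousLinearMap.continuous.tendsto X').comp
      hslope
  have hA : ∀ a b, Tendsto (fun s => (Φ * (s⁻¹ • (γ s - X)) * Us s) a b) (𝓝[≠] 0)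
      (𝓝 ((Φ * X' * U) a b)) := fun a b => by
    simp only [Matrix.mul_apply]
    exact tendsto_finsetSum _ fun c _ =>
      (tendsto_finsetSum _ fun d _ => (hsl d c).const_mul (Φ a d)).mul (hUse c b)
  have hB : ∀ a b, Tendsto (fun s => (Φ * Us s) a b) (𝓝[≠] 0) (𝓝 ((Φ * U) a b)) := fun a b => by
    simp only [Matrix.mul_apply]
    exact tendsto_finsetSum _ fun c _ => (hUse c b).const_mul (Φ a c)
  have heq' : ∀ᶠ s in 𝓝[≠] 0,
      Φ * (s⁻¹ • (γ s - X)) * Us s = (s⁻¹ * (l s - μ)) • (Φ * Us s) := by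
    filter_upwards [heq.filter_mono nhdsWithin_le_nhds] with s hs
    rw [Matrix.mul_smul, Matrix.smul_mul, hs, smul_smul]
  have hlim : Tendsto (fun s => s⁻¹ * (l s - μ)) (𝓝[≠] 0)
      (𝓝 ((Φ * X' * U) i j / (Φ * U) i j)) := by
    refine ((hA i j).div (hB i j) hij).congr' ?_
    filter_upwards [heq', (hB i j).eventually_ne hij] with s hs hne
    simp only [Pi.div_apply, hs, Matrix.smul_apply, smul_eq_mul]
    exact mul_div_cancel_right₀ _ hne
  rw [Submodule.mem_comap, Submodule.mem_span_singleton]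
  refine ⟨(Φ * X' * U) i j / (Φ * U) i j, ?_⟩
  change ((Φ * X' * U) i j / (Φ * U) i j) • (Φ * U) = Φ * X' * U
  ext a b
  refine tendsto_nhds_unique ((hlim.mul (hB a b)).congr' (heq'.mono fun s hs => ?_)) (hA a b)
  rw [hs]
  rfl

theorem exists_tangent_space (X : Mat r ℂ) {k : ℕ} (hkr : k < r) (hle : ∀ μ, eigDim X μ ≤ k)
    (hex : ∃ μ, k ≤ eigDim X μ) :
    ∃ T : Submodule ℂ (Mat r ℂ), finrank ℂ T + 2 * (r * k) ≤ 2 * (r * r) ∧
      ∀ γ : ℂ → Mat r ℂ, γ 0 = X → ∀ X', HasDerivAt γ X' 0 →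
        (∀ᶠ s in 𝓝 0, ∃ μ, k ≤ eigDim (γ s) μ) → X' ∈ T := by
  by_cases hk2 : 2 * k ≤ r
  · refine ⟨⊤, ?_, fun _ _ _ _ _ => Submodule.mem_top⟩
    rw [finrank_top, Module.finrank_matrix, Fintype.card_fin, Module.finrank_self, mul_one]
    have := Nat.mul_le_mul_left r hk2
    rw [Nat.mul_left_comm r 2 k] at this
    omega
  obtain ⟨μ, hμ⟩ := hex
  have hμk : eigDim X μ = k := le_antisymm (hle μ) hμ
  obtain ⟨f⟩ := exists_Frame hμk
  refine ⟨(ℂ ∙ (f.Φ * f.U)).comap (comprL f.Φ f.U), finrank_comap_comprL_le f hkr,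
    fun γ hγ0 X' hγ hev => ?_⟩
  have hchoice : ∀ s, ∃ l : ℂ, (∃ μ', k ≤ eigDim (γ s) μ') → k ≤ eigDim (γ s) l := fun s => by
    by_cases h : ∃ μ', k ≤ eigDim (γ s) μ'
    · exact ⟨h.choose, fun _ => h.choose_spec⟩
    · exact ⟨0, fun h' => absurd h' h⟩
  choose l0 hl0' using hchoice
  let l : ℂ → ℂ := Function.update l0 0 μ
  have hl : ∀ᶠ s in 𝓝 0, k ≤ eigDim (γ s) (l s) := hev.mono fun s hs => by
    by_cases h : s = 0
    · subst h
      simpa [l, hγ0] using hμ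
    · simpa [l, Function.update_of_ne h] using hl0' s hs
  exact f.deriv_mem (Nat.lt_of_not_le hk2) hμk hγ0 hγ (Function.update_self ..) hl

end Vale.Agent.P002
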